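import Vale.Agent.P251.S.TensorShift
import Vale.Agent.P251.St.Base

/-!
# P241, block CONE: cones in a tensor triangulated category and suspension spectra

* `IsConeOf f C` : `C` is a cone of `f`; uniqueness, isomorphic arrows, tensor products, shifts;
* `isConeOf_line` : the cone of `S.map h`, where `h` induces `φ ⊗ id` on `X ∧ S¹`, is the
  suspension of the cone of `φ`;
* `isConeOf_prod` : the cone of `id_F × v` is `S F ⊗ cone (S v)`.
-/

open CategoryTheory MonoidalCategory Limits Pretriangulated OnePoint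

set_option linter.unusedSectionVars false

universe v u

namespace Vale.Agent.P241.H399

open Vale.Agent.P251 Vale.Agent.P251.T Vale.Agent.P251.S

section tri

variable {T : Type u} [Category.{v} T] [Preadditive T] [HasZeroObject T] [HasShift T ℤ]
  [∀ n : ℤ, (shiftFunctor T n).Additive] [Pretriangulated T]

/-- `C` is a cone of `f`. -/
def IsConeOf {X Y : T} (f : X ⟶ Y) (C : T) : Prop :=
  ∃ (g : Y ⟶ C) (h : C ⟶ X⟦(1 : ℤ)⟧), Triangle.mk f g h ∈ distTriang T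

theorem exists_isConeOf {X Y : T} (f : X ⟶ Y) : ∃ C : T, IsConeOf f C := by
  obtain ⟨C, g, h, H⟩ := distinguished_cocone_triangle f
  exact ⟨C, g, h, H⟩

namespace IsConeOf

variable {X Y C : T} {f : X ⟶ Y}

/-- cones of isomorphic arrows are isomorphic -/
theorem nonempty_iso (H : IsConeOf f C) {X' Y' C' : T} {f' : X' ⟶ Y'} (H' : IsConeOf f' C')
    (e : X ≅ X') (e' : Y ≅ Y') (w : f ≫ e'.hom = e.hom ≫ f') : Nonempty (C ≅ C') := by
  obtain ⟨g, h, H⟩ := H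
  obtain ⟨g', h', H'⟩ := H'
  exact ⟨Triangle.π₃.mapIso (isoTriangleOfIso₁₂ _ _ H H' e e' w)⟩

theorem uniq (H : IsConeOf f C) {C' : T} (H' : IsConeOf f C') : Nonempty (C ≅ C') :=
  H.nonempty_iso H' (Iso.refl _) (Iso.refl _) (by simp)

theorem of_iso (H : IsConeOf f C) {X' Y' C' : T} {f' : X' ⟶ Y'} (e : X ≅ X') (e' : Y ≅ Y')
    (w : f ≫ e'.hom = e.hom ≫ f') (i : C ≅ C') : IsConeOf f' C' := by
  obtain ⟨g, h, H⟩ := H
  refine ⟨e'.inv ≫ g ≫ i.hom, i.inv ≫ h ≫ e.hom⟦(1 : ℤ)⟧', ?_⟩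
  refine isomorphic_distinguished _ H _ ?_
  exact Triangle.isoMk _ _ e.symm e'.symm i.symm
    (by
      change f' ≫ e'.inv = e.inv ≫ f
      rw [Iso.comp_inv_eq, Category.assoc, w, Iso.inv_hom_id_assoc])
    (by
      change (e'.inv ≫ g ≫ i.hom) ≫ i.inv = e'.inv ≫ g
      simp)
    (by
      change (i.inv ≫ h ≫ e.hom⟦(1 : ℤ)⟧') ≫ e.inv⟦(1 : ℤ)⟧' = i.inv ≫ h
      rw [Category.assoc, Category.assoc, ← Functor.map_comp, e.hom_inv_id,
        CategoryTheory.Functor.map_id, Category.comp_id])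

theorem of_arrow (H : IsConeOf f C) {X' Y' : T} {f' : X' ⟶ Y'} (e : X ≅ X') (e' : Y ≅ Y')
    (w : f ≫ e'.hom = e.hom ≫ f') : IsConeOf f' C :=
  H.of_iso e e' w (Iso.refl C)

theorem of_cone (H : IsConeOf f C) {C' : T} (i : C ≅ C') : IsConeOf f C' :=
  H.of_iso (Iso.refl _) (Iso.refl _) (by simp) i

theorem neg (H : IsConeOf f C) : IsConeOf (-f) C :=
  H.of_arrow (Iso.refl _) (-Iso.refl _) (by
    change f ≫ (-𝟙 Y) = 𝟙 X ≫ (-f)
    simp)

theorem shift (H : IsConeOf f C) : IsConeOf (f⟦(1 : ℤ)⟧') (C⟦(1 : ℤ)⟧) := by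
  obtain ⟨g, h, H⟩ := H
  have h1 := Triangle.shift_distinguished _ H 1
  have h2 : IsConeOf ((Int.negOnePow 1) • (f⟦(1 : ℤ)⟧')) (C⟦(1 : ℤ)⟧) := ⟨_, _, h1⟩
  have h4 := h2.neg
  rwa [Int.negOnePow_one, Units.neg_smul, one_smul, neg_neg] at h4

end IsConeOf

end tri

section tensor

variable {T : Type u} [Category.{v} T] [Preadditive T] [HasZeroObject T] [HasShift T ℤ]
  [∀ n : ℤ, (shiftFunctor T n).Additive] [Pretriangulated T]
  [MonoidalCategory T] [SymmetricCategory T] [TensorTriangulated T]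

variable {X Y C : T} {f : X ⟶ Y}

theorem IsConeOf.whiskerLeft (H : IsConeOf f C) (A : T) : IsConeOf (A ◁ f) (A ⊗ C) := by
  obtain ⟨g, h, H⟩ := H
  exact ⟨_, _, dist_whiskerLeft A H⟩

theorem IsConeOf.whiskerRight (H : IsConeOf f C) (A : T) : IsConeOf (f ▷ A) (C ⊗ A) := by
  obtain ⟨g, h, H⟩ := H
  exact ⟨_, _, dist_whiskerRight A H⟩

end tensor

section susp

open Vale.Agent.P251.St Vale.Agent.P251.St.SHCat

variable {T : SHCat} (S : Susp T)

/-- `S.mul` as an isomorphism -/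
noncomputable def mulI {X Y : Space} (hX : FC X) (hY : FC Y) :
    S.obj X ⊗ S.obj Y ≅ S.obj (X.prod Y) :=
  @asIso T.C _ _ _ (S.mul X Y) (S.mul_isIso hX hY)

@[simp] theorem mulI_hom {X Y : Space} (hX : FC X) (hY : FC Y) :
    (mulI S hX hY).hom = S.mul X Y := rfl

/-- `S¹` -/
noncomputable def lineI : S.obj Rr ≅ (𝟙_ T.C)⟦(1 : ℤ)⟧ := @asIso T.C _ _ _ S.line S.line_isIso

theorem fc_Rr : FC Rr :=
  FC.hequiv (FC.sph 1) (by
    let e : (Fin 1 → ℝ) ≃ₜ ℝ := Homeomorph.funUnique (Fin 1) ℝ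
    refine ⟨⟨OnePoint.map e, OnePoint.continuous_map e.continuous (by
      simpa only [Filter.coclosedCompact_eq_cocompact] using
        e.isClosedEmbedding.tendsto_cocompact), rfl⟩,
      ⟨OnePoint.map e.symm, OnePoint.continuous_map e.symm.continuous (by
      simpa only [Filter.coclosedCompact_eq_cocompact] using
        e.symm.isClosedEmbedding.tendsto_cocompact), rfl⟩,
      ⟨fun _ => id, ⟨continuous_snd, fun _ => rfl⟩, ?_, rfl⟩,
      ⟨fun _ => id, ⟨continuous_snd, fun _ => rfl⟩, ?_, rfl⟩⟩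
    · funext x
      induction x using OnePoint.rec with
      | infty => rfl
      | coe x => exact congrArg OnePoint.some (e.symm_apply_apply x).symm
    · funext x
      induction x using OnePoint.rec with
      | infty => rfl
      | coe x => exact congrArg OnePoint.some (e.apply_symm_apply x).symm)

/-- `S (X × ℝ) ≅ (S X)⟦1⟧` -/
noncomputable def prodLine {X : Space} (hX : FC X) : S.obj (X.prod Rr) ≅ (S.obj X)⟦(1 : ℤ)⟧ :=
  (mulI S hX fc_Rr).symm ≪≫ whiskerLeftIso (S.obj X) (lineI S) ≪≫ T.tensor.e (S.obj X)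

theorem prodLine_naturality {X Y : Space} (hX : FC X) (hY : FC Y) (φ : S.obj X ⟶ S.obj Y)
    (h : S.obj (X.prod Rr) ⟶ S.obj (Y.prod Rr))
    (hh : S.mul X Rr ≫ h = (φ ⊗ₘ 𝟙 (S.obj Rr)) ≫ S.mul Y Rr) :
    h ≫ (prodLine S hY).hom = (prodLine S hX).hom ≫ φ⟦(1 : ℤ)⟧' := by
  have h1 : (mulI S hX fc_Rr).hom ≫ h = (φ ▷ S.obj Rr) ≫ (mulI S hY fc_Rr).hom := by
    rw [mulI_hom, mulI_hom, hh, MonoidalCategory.tensorHom_id]
  have h2 : h = (mulI S hX fc_Rr).inv ≫ (φ ▷ S.obj Rr) ≫ (mulI S hY fc_Rr).hom := by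
    rw [← h1, Iso.inv_hom_id_assoc]
  rw [h2]
  simp only [prodLine, Iso.trans_hom, Iso.symm_hom, whiskerLeftIso_hom, Category.assoc,
    Iso.hom_inv_id_assoc]
  rw [← whisker_exchange_assoc, T.tensor.e_naturality]

/-- The cone of a map which induces `φ ⊗ id` on `X ∧ S¹` is the suspension of the cone of `φ`. -/
theorem isConeOf_line {X Y : Space} (hX : FC X) (hY : FC Y) (φ : S.obj X ⟶ S.obj Y)
    (h : S.obj (X.prod Rr) ⟶ S.obj (Y.prod Rr))
    (hh : S.mul X Rr ≫ h = (φ ⊗ₘ 𝟙 (S.obj Rr)) ≫ S.mul Y Rr) {W : T.C} (hW : IsConeOf φ W) :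
    IsConeOf h (W⟦(1 : ℤ)⟧) :=
  hW.shift.of_arrow (prodLine S hX).symm (prodLine S hY).symm (by
    change φ⟦(1 : ℤ)⟧' ≫ (prodLine S hY).inv = (prodLine S hX).inv ≫ h
    rw [Iso.comp_inv_eq, Category.assoc, prodLine_naturality S hX hY φ h hh,
      Iso.inv_hom_id_assoc])

theorem isConeOf_line_iso {X Y : Space} (hX : FC X) (hY : FC Y) (φ : S.obj X ⟶ S.obj Y)
    (h : S.obj (X.prod Rr) ⟶ S.obj (Y.prod Rr))
    (hh : S.mul X Rr ≫ h = (φ ⊗ₘ 𝟙 (S.obj Rr)) ≫ S.mul Y Rr) {W Z : T.C} (hW : IsConeOf φ W)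
    (hZ : IsConeOf h Z) : Nonempty (Z ≅ W⟦(1 : ℤ)⟧) :=
  hZ.uniq (isConeOf_line S hX hY φ h hh hW)

theorem map_eq_whiskerLeft {F P Q : Space} (hF : FC F) (hP : FC P) (hQ : FC Q) (v : Map P Q)
    (m : Map (F.prod P) (F.prod Q)) (hm : ∀ x y, m.toFun (smash x y) = smash x (v.toFun y)) :
    (mulI S hF hP).hom ≫ S.map m = (S.obj F ◁ S.map v) ≫ (mulI S hF hQ).hom := by
  have h := S.mul_natural (X := F) (X' := F) (Y := P) (Y' := Q) ⟨id, continuous_id, rfl⟩ v m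
    hF hF hP hQ hm
  rw [S.map_id ⟨id, continuous_id, rfl⟩ hF rfl] at h
  change S.mul F P ≫ S.map m = (𝟙 (S.obj F) ⊗ₘ S.map v) ≫ S.mul F Q at h
  rw [MonoidalCategory.id_tensorHom] at h
  exact h

/-- The cone of `id_F × v` is `S F ⊗ cone (S v)`. -/
theorem isConeOf_prod {F P Q : Space} (hF : FC F) (hP : FC P) (hQ : FC Q) (v : Map P Q)
    (m : Map (F.prod P) (F.prod Q)) (hm : ∀ x y, m.toFun (smash x y) = smash x (v.toFun y))
    {C : T.C} (hC : IsConeOf (S.map v) C) : IsConeOf (S.map m) (S.obj F ⊗ C) :=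
  (hC.whiskerLeft (S.obj F)).of_arrow (mulI S hF hP) (mulI S hF hQ)
    (map_eq_whiskerLeft S hF hP hQ v m hm).symm

end susp

end Vale.Agent.P241.H399
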