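import Vale.Agent.P241.H585.Cone
import Vale.Agent.P241.H241.GLin
import Vale.Agent.P241.H241.Alg
import Vale.Agent.P241.H399.TCone
import Vale.Agent.P251.St.OfFunctor

/-!
# P241, block CONE: the mapping cone of the difference of two `G`-maps

* `gdiff f g` : the mapping cone of `f - g : A ∧ S¹ → B ∧ S¹` for `G`-maps `f g : A⁺ → B⁺`;
* `gfc_gdiff` : it is a finite `G`-cell space;
* `isConeOf_gdiff` : `Σ^∞` of its `V`-fixed points is the suspension of the cone of
  `S f^V - S g^V`.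
-/

open CategoryTheory MonoidalCategory Limits Pretriangulated OnePoint
open Vale.Agent.P251 Vale.Agent.P251.G Vale.Agent.P251.G.LC Vale.Agent.P251.I
open Vale.Agent.P251.St Vale.Agent.P251.St.SHCat Vale.Agent.P241.St
open Vale.Agent.P241.Geo Vale.Agent.P241.H241

noncomputable section

namespace Vale.Agent.P241.H399

section susp

variable {T : SHCat} (S : Susp T)

theorem mapL_id {X : LC} (hX : St.FC (ofLC X)) : S.mapL (𝟙 X) = 𝟙 (S.obj (ofLC X)) :=
  S.map_id _ hX rfl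

theorem mapL_comp {X Y Z : LC} (hX : St.FC (ofLC X)) (hY : St.FC (ofLC Y)) (hZ : St.FC (ofLC Z))
    (f : X ⟶ Y) (g : Y ⟶ Z) : S.mapL (f ≫ g) = S.mapL f ≫ S.mapL g :=
  S.map_comp _ _ _ hX hY hZ rfl

/-- `S` of an isomorphism -/
def mapIsoL {X Y : LC} (hX : St.FC (ofLC X)) (hY : St.FC (ofLC Y)) (e : X ≅ Y) :
    S.obj (ofLC X) ≅ S.obj (ofLC Y) where
  hom := S.mapL e.hom
  inv := S.mapL e.inv
  hom_inv_id := by rw [← mapL_comp S hX hY hX, e.hom_inv_id, mapL_id S hX]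
  inv_hom_id := by rw [← mapL_comp S hY hX hY, e.inv_hom_id, mapL_id S hY]

/-- finite cell spaces are closed under isomorphism -/
theorem fc_of_isoL {X Y : LC} (hX : St.FC (ofLC X)) (e : X ≅ Y) : St.FC (ofLC Y) :=
  (fc_iff (ofLC Y)).2 (LC.FC.of_iso ((fc_iff (ofLC X)).1 hX) e)

end susp

variable {G : Type} [Group G] {A B : GSpace G}

/-- the map `f - g : (A × ℝ)⁺ → (B × ℝ)⁺` -/
abbrev dif (f g : EMap A B) : EMap (xt A Rr) (xt B Rr) := glin [(true, f), (false, g)]

/-- The mapping cone of `f - g`. -/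
def gdiff (f g : EMap A B) : GSpace G := gcone (dif f g).1 (dif f g).2

theorem gfc_gdiff (f g : EMap A B) (hB : GFC G (xt B Rr)) (hA : GFC G (xt (xt A Rr) Rr)) :
    GFC G (gdiff f g) := gfc_gcone' _ _ hB hA

section

variable {T : SHCat} (S : Susp T)

/-- **The fixed points of the mapping cone of `f - g`.** -/
theorem isConeOf_gdiff (f g : EMap A B) (V : Subgroup G) (hA : St.FC (A.fix V))
    (hB : St.FC (B.fix V)) (hC : St.FC ((gdiff f g).fix V)) :
    ∃ W : T.C, IsConeOf (S.mapL (f.fix V) - S.mapL (g.fix V)) W ∧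
      Nonempty (S.obj ((gdiff f g).fix V) ≅ W⟦(1 : ℤ)⟧) := by
  have hAR : St.FC (ofLC (fixL A V ⊗ RR)) := fc_prod hA fc_Rr
  have hBR : St.FC (ofLC (fixL B V ⊗ RR)) := fc_prod hB fc_Rr
  have hAR' : St.FC ((xt A Rr).fix V) := fc_of_isoL hAR (fixXt A Rr V)
  have hBR' : St.FC ((xt B Rr).fix V) := fc_of_isoL hBR (fixXt B Rr V)
  obtain ⟨a, b, h1⟩ := (isConeOf_fix (dif f g).1 (dif f g).2 S V hAR' hBR' hC).of_arrow
    (f' := S.mapL (lin [(true, f.fix V), (false, g.fix V)]))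
    (mapIsoL S hAR hAR' (fixXt A Rr V)).symm (mapIsoL S hBR hBR' (fixXt B Rr V)).symm (by
      change S.mapL ((dif f g).fix V) ≫ S.mapL (fixXt B Rr V).inv =
        S.mapL (fixXt A Rr V).inv ≫ S.mapL (lin [(true, f.fix V), (false, g.fix V)])
      rw [← mapL_comp S hAR' hBR' hBR, ← mapL_comp S hAR' hAR hBR]
      congr 1
      have h := fixXt_glin [(true, f), (false, g)] V
      rw [Iso.comp_inv_eq, Category.assoc, Iso.eq_inv_comp]
      exact h)
  let XF : FCat := ⟨fixL A V, fc_toLC hA⟩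
  let YF : FCat := ⟨fixL B V, fc_toLC hB⟩
  let fF : XF ⟶ YF := FCat.hom (f.fix V)
  let gF : XF ⟶ YF := FCat.hom (g.fix V)
  obtain ⟨W, g', h', hW, e⟩ := exists_dist_of_lin (X := XF) (Y := YF) S.toSpaceFunctor
    [(true, fF), (false, gF)] (C := S.obj ((gdiff f g).fix V)) (g := a) (h := b) h1
  refine ⟨W, ?_, e⟩
  have h2 : combS S.toSpaceFunctor [(true, fF), (false, gF)] =
      S.mapL (f.fix V) - S.mapL (g.fix V) := comb_sub _ _
  rw [h2] at hW
  exact ⟨g', h', hW⟩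

end

end Vale.Agent.P241.H399
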