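import Vale.Agent.P241.H32.Cells

/-!
# P241, block CONE: extensions of finite `G`-cell spaces by closed subspaces

* `gfc_of_closed` : a `G`-space with a closed invariant subspace `A` and open complement `C`, both
  finite `G`-cell spaces, and an equivariant proper retraction of the cylinder to
  `B × 0 ∪ A × I`, is a finite `G`-cell space.
-/

open CategoryTheory MonoidalCategory OnePoint Topology Filter

namespace Vale.Agent.P241.H399

open Vale.Agent.P251 Vale.Agent.P251.St Vale.Agent.P251.G Vale.Agent.P251.G.LC
open Vale.Agent.P241.St Vale.Agent.P241.H486 Vale.Agent.P241.H32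

variable {G : Type} [Group G] {A B C : GSpace G}

/-- **Extensions.** -/
theorem gfc_of_closed (a : A.carrier → B.carrier) (c : C.carrier → B.carrier)
    (hcl : IsClosedEmbedding a) (hc : IsOpenEmbedding c)
    (hac : IsCompl (Set.range a) (Set.range c))
    (haG : ∀ (g : G) (x : A.carrier), a (g • x) = g • a x)
    (hcG : ∀ (g : G) (x : C.carrier), c (g • x) = g • c x)
    (σ : B.carrier × unitInterval → B.carrier × unitInterval) (hσ : Continuous σ)
    (hσ' : Tendsto σ (cocompact _) (cocompact _)) (hσ0 : ∀ b, σ (b, 0) = (b, 0))
    (hσa : ∀ x t, σ (a x, t) = (a x, t)) (hσr : ∀ p, (σ p).2 = 0 ∨ (σ p).1 ∈ Set.range a)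
    (hσG : ∀ (g : G) b t, σ (g • b, t) = (g • (σ (b, t)).1, (σ (b, t)).2))
    (hA : GFC G A) (hC : GFC G C) : GFC G B := by
  classical
  let i : toLC A.und ⟶ toLC B.und := ofClosed (X := toLC A.und) (Y := toLC B.und) a hcl
  let q : toLC B.und ⟶ toLC C.und := ofOpen (X := toLC B.und) (Y := toLC C.und) c hc
  have hiinj : Function.Injective (app i) := app_injective_ofClosed (X := toLC A.und)
    (Y := toLC B.und) hcl
  have hdisj : ∀ x : B.carrier, x ∈ Set.range a → x ∉ Set.range c := fun x h1 h2 =>
    (Set.disjoint_left.mp hac.disjoint) h1 h2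
  have hcov : ∀ x : B.carrier, x ∈ Set.range a ∨ x ∈ Set.range c := by
    intro x
    have h1 : Set.range a ⊔ Set.range c = ⊤ := hac.sup_eq_top
    have h2 : x ∈ (⊤ : Set B.carrier) := trivial
    rw [← h1] at h2
    exact h2
  have hqc : ∀ x : C.carrier, app q ((c x : B.carrier) : OnePoint B.carrier) =
      (x : OnePoint C.carrier) := fun x => app_ofOpen_coe (X := toLC B.und) (Y := toLC C.und) c hc x
  have hqn : ∀ x : B.carrier, x ∉ Set.range c → app q (x : OnePoint B.carrier) = ∞ := fun x hx =>
    app_ofOpen_of_notMem (X := toLC B.und) (Y := toLC C.und) c hc hx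
  have hiG : IsGMap (X := A) (Y := B) (app i) := isGMap_ofClosed a hcl haG
  have hqG : IsGMap (X := B) (Y := C) (app q) := by
    intro g x
    induction x using OnePoint.rec with
    | infty => exact (app_infty q).trans (congrArg (C.smul g) (app_infty q).symm)
    | coe x =>
      by_cases hx : x ∈ Set.range c
      · obtain ⟨y, rfl⟩ := hx
        refine Eq.trans ?_ (congrArg (C.smul g) (hqc y).symm)
        change app q ((g • c y : B.carrier) : OnePoint B.carrier) =
          ((g • y : C.carrier) : OnePoint C.carrier)
        rw [← hcG]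
        exact hqc _
      · refine Eq.trans ?_ (congrArg (C.smul g) (hqn x hx).symm)
        refine hqn (g • x) ?_
        rintro ⟨y, hy⟩
        apply hx
        refine ⟨g⁻¹ • y, ?_⟩
        rw [hcG, hy, inv_smul_smul]
  refine GFC.ext (A := A) (B := B) (C := C) (i := ofHom i) (q := ofHom q) hiG hqG ?_ ⟨?_, ?_⟩
    hA hC
  · -- cofibration
    have hmem : ∀ b : B.carrier, (b : OnePoint B.carrier) ∈ Set.range (app i) ↔
        b ∈ Set.range a := mem_range_ofClosed a hcl
    let r : toLC B.und ⊗ II ⟶ toLC B.und ⊗ II :=
      ofProper (X := LC.of (B.carrier × unitInterval)) (Y := LC.of (B.carrier × unitInterval))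
        σ hσ hσ'
    have hr : ∀ (b : B.carrier) (t : unitInterval),
        app r (LC.smash (b : OnePoint B.carrier) (t : OnePoint unitInterval))
          = LC.smash ((σ (b, t)).1 : OnePoint B.carrier)
            ((σ (b, t)).2 : OnePoint unitInterval) :=
      fun b t => rfl
    refine gcofib_of_isRetr (A := A) (B := B) (i := ofHom i) hiG hiinj
      (r := r) ⟨?_, ?_, ?_⟩ ?_
    · intro b
      induction b using OnePoint.rec with
      | infty => rfl
      | coe b => rw [hr, hσ0]
    · intro b hb t
      induction b using OnePoint.rec with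
      | infty => rfl
      | coe b =>
        obtain ⟨x, rfl⟩ := (hmem b).mp hb
        rw [hr, hσa]
    · intro p
      induction p using OnePoint.rec with
      | infty => exact ⟨∞, 0, rfl, Or.inl rfl⟩
      | coe p =>
        obtain ⟨b, t⟩ := p
        refine ⟨((σ (b, t)).1 : OnePoint B.carrier), (σ (b, t)).2, hr b t, ?_⟩
        exact (hσr (b, t)).imp id fun h => (hmem _).mpr h
    · intro g b t
      induction b using OnePoint.rec with
      | infty => rfl
      | coe b =>
        refine (hr (g • b) t).trans ?_
        rw [hr, hσG]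
        rfl
  · -- surjectivity
    intro x
    induction x using OnePoint.rec with
    | infty => exact ⟨∞, app_infty q⟩
    | coe x => exact ⟨_, hqc x⟩
  · have hinf : ∀ b : B.und.Pt, app q b = ∞ ↔ b ∈ Set.range (app i) := by
      intro b
      induction b using OnePoint.rec with
      | infty => exact ⟨fun _ => ⟨∞, app_infty i⟩, fun _ => app_infty q⟩
      | coe b =>
        rw [mem_range_ofClosed a hcl]
        constructor
        · intro h
          refine (hcov b).resolve_right ?_
          rintro ⟨y, rfl⟩
          exact OnePoint.coe_ne_infty _ ((hqc y).symm.trans h)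
        · intro h
          exact hqn b (hdisj b h)
    intro b b'
    change app q b = app q b' ↔ b = b' ∨ (b ∈ Set.range (app i) ∧ b' ∈ Set.range (app i))
    constructor
    · intro h
      by_cases hb : b ∈ Set.range (app i)
      · exact Or.inr ⟨hb, (hinf b').mp (h.symm.trans ((hinf b).mpr hb))⟩
      · left
        have hb' : b' ∉ Set.range (app i) := fun h' =>
          hb ((hinf b).mp (h.trans ((hinf b').mpr h')))
        have key : ∀ z : B.und.Pt, z ∉ Set.range (app i) → ∃ y : C.carrier,
            z = ((c y : B.carrier) : OnePoint B.carrier) := by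
          intro z hz
          induction z using OnePoint.rec with
          | infty => exact absurd ⟨∞, app_infty i⟩ hz
          | coe z =>
            obtain ⟨y, hy⟩ := (hcov z).resolve_left fun h => hz ((mem_range_ofClosed a hcl z).mpr h)
            exact ⟨y, congrArg _ hy.symm⟩
        obtain ⟨y, rfl⟩ := key b hb
        obtain ⟨y', rfl⟩ := key b' hb'
        have h1 := (hqc y).symm.trans (h.trans (hqc y'))
        rw [OnePoint.coe_injective h1]
    · rintro (rfl | ⟨h1, h2⟩)
      · rfl
      · exact ((hinf b).mpr h1).trans ((hinf b').mpr h2).symm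

end Vale.Agent.P241.H399
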