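import Vale.Agent.P241.H399.TCone
import Vale.Agent.P241.Final.BForm
import Vale.Agent.P241.Final.Weyl
import Vale.Agent.P241.Final.TopDown

/-!
# P241, block CONE: the statement

`ConeOut S X A k v Z` : the `G`-space `Z` is the mapping cone of `1 ∧ v - u` on `X_k ∧ P ∧ S¹`.
Here `u` is the restriction of the `b`-form, `X_k` is the union of `X` and the `G`-orbit of
`X^A × (star (N A / A))^k`, and

* for `B` not subconjugate to `A`, `Σ^∞ Z^B` is the suspension of the cone of
  `0 : X^B ∧ P ⟶ X^B ∧ Q`;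
* `Σ^∞ Z^A` is the suspension of `(X^A × (star W)^k)⁺ ∧ cone v`.
-/

open CategoryTheory MonoidalCategory Limits Pretriangulated OnePoint
open Vale.Agent.P251.St Vale.Agent.P251.St.SHCat Vale.Agent.P241.St Vale.Agent.P241.Final
open Vale.Agent.P241.H137

namespace Vale.Agent.P241.H399

variable {T : SHCat} (S : Susp T)

/-- The output of the block CONE. -/
structure ConeOut {G : Type} [Group G] [Finite G] (X : GSpace G) (A : Subgroup G) (k : ℕ)
    {P Q : Space} (v : Map P Q) (Z : GSpace G) : Prop where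
  gfc : GFC G Z
  /-- the fixed points of the subgroups which are not subconjugate to `A` -/
  not_sub : ∀ B : Subgroup G, ¬ SubConj B A → ∀ W : T.C,
    IsConeOf (0 : S.obj (X.fix B) ⊗ S.obj P ⟶ S.obj (X.fix B) ⊗ S.obj Q) W →
    Nonempty (S.obj (Z.fix B) ≅ W⟦(1 : ℤ)⟧)
  /-- the fixed points of `A` -/
  self : ∀ C : T.C, IsConeOf (S.map v) C → Nonempty (S.obj (Z.fix A) ≅
    (S.obj ((X.fix A).prod (tp (Weyl A) (Weyl A) k).und) ⊗ C)⟦(1 : ℤ)⟧)

end Vale.Agent.P241.H399
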