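import Vale.Agent.P241.H399.Self
import Vale.Agent.P241.H399.Props

/-!
# P241, block CONE: the cone step

`exists_coneOut` : the output `ConeOut` of the cone step from a `b`-form; inputs: the products
`X × S` of finite `G`-cell spaces with finite cell spaces `S`, and `XA X A k`, are finite `G`-cell
spaces.
-/

open CategoryTheory MonoidalCategory Limits Pretriangulated OnePoint
open Vale.Agent.P251 Vale.Agent.P251.G Vale.Agent.P251.G.LC
open Vale.Agent.P251.St Vale.Agent.P251.St.SHCat Vale.Agent.P241.St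
open Vale.Agent.P241.Geo Vale.Agent.P241.H241 Vale.Agent.P241.H733 Vale.Agent.P241.Final
open Vale.Agent.P241.H137

namespace Vale.Agent.P241.H399

/-- `X × S` is a finite `G`-cell space. -/
def XtGFC : Prop := ∀ (G : Type) [Group G] [Finite G] (X : GSpace G) (S : Space),
  GFC G X → St.FC S → GFC G (xt X S)

/-- `XA X A k` is a finite `G`-cell space. -/
def XaGFC : Prop := ∀ (G : Type) [Group G] [Finite G] (X : GSpace G) (A : Subgroup G) (k : ℕ),
  GFC G X → GFC G (xaG X A k)

/-- **The cone step.** -/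
theorem exists_coneOut (hxt : XtGFC) (hxa : XaGFC) {T : SHCat} (S : Susp T) {G : Type} [Group G]
    [Finite G] {X : GSpace G} (hX : GFC G X) {A : Subgroup G} {k : ℕ} {P Q : Space} (hP : St.FC P)
    (hQ : St.FC Q) {v : Map P Q} (h : BForm (weyl X A) k v) :
    ∃ Z : GSpace G, ConeOut S X A k v Z := by
  obtain ⟨b, hb, hbv⟩ := exists_ext h
  have hXk : GFC G (xaG X A k) := hxa G X A k hX
  have hZ : GFC G (coneZ X A k v b hb) :=
    gfc_gdiff _ _ (hxt G _ _ (hxt G _ _ hXk hQ) fc_Rr)
      (hxt G _ _ (hxt G _ _ (hxt G _ _ hXk hP) fc_Rr) fc_Rr)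
  refine ⟨coneZ X A k v b hb, hZ, fun B hB W hW => ?_, fun C hC => ?_⟩
  · exact iso_notSub X A S hb hbv hB hP hQ (H486.fixFC G X hX B) (H486.fixFC G _ hZ B) hW
  · exact iso_self X A k S hb hP hQ (H486.fixFC G _ hXk A) (H486.fixFC G _ hZ A) hC

end Vale.Agent.P241.H399
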