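import Vale.Agent.P241.H733.Defs
import Mathlib.Topology.Maps.Proper.CompactlyGenerated

/-!
# P241, block CONE: the retraction of the cylinder of `XA X A (m + 1)`

* `Star.shr x t` : shorten `x` by `t`;
* `XA.retr` : the retraction `(p, t) ↦ (p', max (t - |p_last|) 0)` of `XA X A (m + 1) × I`;
  `p'` is `p` with the last coordinate shortened by `t`.
-/

open Set MulAction Topology Filter

namespace Vale.Agent.P241.H399


section star

variable {I : Type}

/-- shorten -/
noncomputable def shr (x : H733.Star I) (t : unitInterval) : H733.Star I :=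
  ⟨fun i => max (x i - t) 0, fun i => le_max_right _ _, fun i j hi hj => by
    have h : ∀ i, max (x i - t) 0 ≠ 0 → x i ≠ 0 := fun i hi h0 => hi (by
      rw [h0, zero_sub]
      exact max_eq_right (neg_nonpos.2 t.2.1))
    exact x.eq_of_ne_zero (h i hi) (h j hj)⟩

@[simp] theorem shr_apply (x : H733.Star I) (t : unitInterval) (i : I) :
    shr x t i = max (x i - t) 0 := rfl

theorem continuous_shr : Continuous fun p : H733.Star I × unitInterval => shr p.1 p.2 :=
  H733.Star.continuous_mk fun i =>
    (((H733.Star.continuous_eval i).comp continuous_fst).sub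
      (continuous_subtype_val.comp continuous_snd)).max continuous_const

theorem shr_zero (x : H733.Star I) : shr x 0 = x := H733.Star.ext fun i => by
  rw [shr_apply]
  change max (x i - 0) 0 = x i
  rw [sub_zero]
  exact max_eq_left (x.nonneg i)

theorem zero_shr (t : unitInterval) : shr (0 : H733.Star I) t = 0 := H733.Star.ext fun i => by
  rw [shr_apply, H733.Star.zero_apply, zero_sub]
  exact max_eq_right (neg_nonpos.2 t.2.1)

theorem ne_zero_of_shr {x : H733.Star I} {t : unitInterval} {i : I} (h : shr x t i ≠ 0) : x i ≠ 0 :=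
  fun h0 => h (by
    rw [shr_apply, h0, zero_sub]
    exact max_eq_right (neg_nonpos.2 t.2.1))

theorem smul_shr {G : Type} [Group G] [MulAction G I] (g : G) (x : H733.Star I) (t : unitInterval) :
    shr (g • x) t = g • shr x t := rfl

variable [Fintype I]

/-- the new time -/
noncomputable def tm (x : H733.Star I) (t : unitInterval) : unitInterval :=
  ⟨max (t - x.nrm) 0, le_max_right _ _, max_le
    ((sub_le_self _ x.nrm_nonneg).trans t.2.2) zero_le_one⟩

theorem continuous_tm : Continuous fun p : H733.Star I × unitInterval => tm p.1 p.2 :=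
  Continuous.subtype_mk (((continuous_subtype_val.comp continuous_snd).sub
    (H733.Star.continuous_nrm.comp continuous_fst)).max continuous_const) _

theorem tm_zero (x : H733.Star I) : tm x 0 = 0 := Subtype.ext (by
  change max (0 - x.nrm) 0 = 0
  rw [zero_sub]
  exact max_eq_right (neg_nonpos.2 x.nrm_nonneg))

theorem zero_tm (t : unitInterval) : tm (0 : H733.Star I) t = t := Subtype.ext (by
  change max ((t : ℝ) - (0 : H733.Star I).nrm) 0 = t
  rw [H733.Star.nrm_zero, sub_zero]
  exact max_eq_left t.2.1)

theorem tm_or (x : H733.Star I) (t : unitInterval) : tm x t = 0 ∨ shr x t = 0 := by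
  rcases le_total (t : ℝ) x.nrm with h | h
  · left
    exact Subtype.ext (max_eq_right (sub_nonpos.2 h))
  · right
    refine H733.Star.ext fun i => max_eq_right (sub_nonpos.2 (le_trans ?_ h))
    exact Finset.single_le_sum (f := fun j => x j) (fun j _ => x.nonneg j) (Finset.mem_univ i)

theorem smul_tm {G : Type} [Group G] [MulAction G I] (g : G) (x : H733.Star I) (t : unitInterval) :
    tm (g • x) t = tm x t := Subtype.ext (by
  change max ((t : ℝ) - (g • x).nrm) 0 = max ((t : ℝ) - x.nrm) 0
  rw [H733.Star.nrm_smul])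

theorem nrm_le_shr (x : H733.Star I) (t : unitInterval) : x.nrm ≤ (shr x t).nrm + 1 := by
  by_cases hx : x = 0
  · rw [hx, H733.Star.nrm_zero]
    exact add_nonneg (H733.Star.nrm_nonneg _) zero_le_one
  · obtain ⟨i, hi⟩ := H733.Star.exists_ne_zero hx
    rw [H733.Star.nrm_eq x hi]
    have h1 : shr x t i ≤ (shr x t).nrm :=
      Finset.single_le_sum (f := fun j => shr x t j) (fun j _ => (shr x t).nonneg j)
        (Finset.mem_univ i)
    have h2 : x i - t ≤ shr x t i := le_max_left _ _
    have h3 : (t : ℝ) ≤ 1 := t.2.2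
    linarith

/-- the points of bounded norm form a compact set -/
theorem isCompact_nrm_le (c : ℝ) : IsCompact {x : H733.Star I | x.nrm ≤ c} := by
  have hemb : IsClosedEmbedding (fun x : H733.Star I => (x : I → ℝ)) :=
    (H733.Star.isClosed_starSet (I := I)).isClosedEmbedding_subtypeVal
  rw [hemb.isInducing.isCompact_iff]
  refine IsCompact.of_isClosed_subset
    (isCompact_univ_pi fun _ : I => isCompact_Icc (a := (0 : ℝ)) (b := c))
    (hemb.isClosedMap _ (isClosed_le H733.Star.continuous_nrm continuous_const)) ?_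
  rintro _ ⟨x, hx, rfl⟩ i _
  exact ⟨x.nonneg i, (Finset.single_le_sum (f := fun j => x j) (fun j _ => x.nonneg j)
    (Finset.mem_univ i)).trans hx⟩

/-- the retraction of the cylinder of the star is proper -/
theorem isProperMap_shr :
    IsProperMap fun p : H733.Star I × unitInterval => (shr p.1 p.2, tm p.1 p.2) := by
  rw [isProperMap_iff_isCompact_preimage]
  refine ⟨continuous_shr.prodMk continuous_tm, fun K hK => ?_⟩
  obtain ⟨c, hc⟩ := (hK.image (f := fun p : H733.Star I × unitInterval => p.1.nrm)
    (H733.Star.continuous_nrm.comp continuous_fst)).bddAbove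
  refine IsCompact.of_isClosed_subset ((isCompact_nrm_le (c + 1)).prod isCompact_univ)
    (hK.isClosed.preimage (continuous_shr.prodMk continuous_tm)) ?_
  rintro ⟨x, t⟩ hx
  refine ⟨?_, mem_univ _⟩
  have h1 : (shr x t).nrm ≤ c := hc ⟨_, hx, rfl⟩
  exact (nrm_le_shr x t).trans (by linarith)

end star

/-! ### The retraction of the cylinder of `XA X A (m + 1)` -/

section xa

open H733 (XA)

variable {G : Type} [Group G] {X : Type} [MulAction G X] {A : Subgroup G} {m : ℕ}

/-- the last coordinate shortened -/
noncomputable def xshr (p : XA X A (m + 1)) (t : unitInterval) : XA X A (m + 1) :=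
  ⟨(p.fst, (Fin.snoc (fun i => p.snd i.castSucc) (shr (p.snd (Fin.last m)) t) :
      Fin (m + 1) → H733.Star (G ⧸ A))), by
    have key : ∀ (i : Fin (m + 1)) (a : G ⧸ A),
        (Fin.snoc (fun i => p.snd i.castSucc) (shr (p.snd (Fin.last m)) t) :
          Fin (m + 1) → H733.Star (G ⧸ A)) i a ≠ 0 → p.snd i a ≠ 0 := by
      intro i a
      refine Fin.lastCases ?_ (fun i' => ?_) i
      · rw [Fin.snoc_last]
        exact ne_zero_of_shr
      · rw [Fin.snoc_castSucc]
        exact id
    exact ⟨fun i j a b ha hb => p.stab_eq (key i a ha) (key j b hb),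
      fun i a ha g hg => p.smul_fst_of_mem_stab (key i a ha) hg⟩⟩

theorem xshr_fst (p : XA X A (m + 1)) (t : unitInterval) : (xshr p t).fst = p.fst := rfl

theorem xshr_castSucc (p : XA X A (m + 1)) (t : unitInterval) (i : Fin m) :
    (xshr p t).snd i.castSucc = p.snd i.castSucc :=
  Fin.snoc_castSucc (α := fun _ => H733.Star (G ⧸ A)) (shr (p.snd (Fin.last m)) t)
    (fun i => p.snd i.castSucc) i

theorem xshr_last (p : XA X A (m + 1)) (t : unitInterval) :
    (xshr p t).snd (Fin.last m) = shr (p.snd (Fin.last m)) t :=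
  Fin.snoc_last (α := fun _ => H733.Star (G ⧸ A)) (shr (p.snd (Fin.last m)) t)
    (fun i => p.snd i.castSucc)

theorem xa_ext {p q : XA X A (m + 1)} (h1 : p.fst = q.fst)
    (h2 : ∀ i : Fin m, p.snd i.castSucc = q.snd i.castSucc)
    (h3 : p.snd (Fin.last m) = q.snd (Fin.last m)) : p = q :=
  XA.ext h1 (funext fun i => Fin.lastCases h3 h2 i)

variable [Fintype (G ⧸ A)]

/-- the retraction of the cylinder -/
noncomputable def sg (p : XA X A (m + 1) × unitInterval) : XA X A (m + 1) × unitInterval :=
  (xshr p.1 p.2, tm (p.1.snd (Fin.last m)) p.2)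

theorem sg_zero (p : XA X A (m + 1)) : sg (p, 0) = (p, 0) :=
  Prod.ext (xa_ext rfl (xshr_castSucc p 0) ((xshr_last p 0).trans (shr_zero _))) (tm_zero _)

theorem sg_succ (p : XA X A m) (t : unitInterval) : sg (p.succ, t) = (p.succ, t) := by
  refine Prod.ext (xa_ext rfl (xshr_castSucc _ t) ((xshr_last _ t).trans ?_)) ?_
  · rw [XA.succ_snd_last, zero_shr]
  · change tm (p.succ.snd (Fin.last m)) t = t
    rw [XA.succ_snd_last, zero_tm]

omit [Fintype (G ⧸ A)] in
theorem succ_pred {p : XA X A (m + 1)} (h : p.snd (Fin.last m) = 0) : p.pred.succ = p :=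
  xa_ext rfl (fun i => XA.succ_snd_castSucc p.pred i) ((XA.succ_snd_last p.pred).trans h.symm)

theorem sg_range (p : XA X A (m + 1) × unitInterval) :
    (sg p).2 = 0 ∨ (sg p).1 ∈ Set.range (XA.succ : XA X A m → XA X A (m + 1)) := by
  refine (tm_or (p.1.snd (Fin.last m)) p.2).imp id fun h => ⟨_, succ_pred ?_⟩
  exact (xshr_last p.1 p.2).trans h

theorem sg_smul (g : G) (p : XA X A (m + 1)) (t : unitInterval) :
    sg (g • p, t) = (g • (sg (p, t)).1, (sg (p, t)).2) := by
  refine Prod.ext (xa_ext rfl (fun i => ?_) ?_) (smul_tm g _ t)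
  · change (xshr (g • p) t).snd i.castSucc = g • (xshr p t).snd i.castSucc
    rw [xshr_castSucc, xshr_castSucc]
    rfl
  · change (xshr (g • p) t).snd (Fin.last m) = g • (xshr p t).snd (Fin.last m)
    rw [xshr_last, xshr_last]
    rfl

variable [TopologicalSpace X]

theorem continuous_sg : Continuous (sg : XA X A (m + 1) × unitInterval → _) := by
  have h : ∀ i : Fin (m + 1), Continuous fun p : XA X A (m + 1) × unitInterval => p.1.snd i :=
    fun i => (continuous_apply i).comp (XA.continuous_snd.comp continuous_fst)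
  refine Continuous.prodMk (XA.continuous_mk (f := fun q : XA X A (m + 1) × unitInterval =>
    xshr q.1 q.2) (show Continuous fun q : XA X A (m + 1) × unitInterval => q.1.fst from
      XA.continuous_fst.comp continuous_fst)
    (continuous_pi fun i => ?_)) (continuous_tm.comp ((h _).prodMk continuous_snd))
  refine Fin.lastCases ?_ (fun i' => ?_) i
  · simp only [xshr_last]
    exact continuous_shr.comp ((h _).prodMk continuous_snd)
  · simp only [xshr_castSucc]
    exact h _

variable [T2Space X] [ContinuousConstSMul G X]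

/-- the coordinates -/
def crd (p : XA X A (m + 1) × unitInterval) :
    (X × (Fin m → H733.Star (G ⧸ A))) × (H733.Star (G ⧸ A) × unitInterval) :=
  ((p.1.fst, fun i => p.1.snd i.castSucc), (p.1.snd (Fin.last m), p.2))

omit [Fintype (G ⧸ A)] [T2Space X] [ContinuousConstSMul G X] in
theorem continuous_crd : Continuous (crd : XA X A (m + 1) × unitInterval → _) := by
  have h : ∀ i : Fin (m + 1), Continuous fun p : XA X A (m + 1) × unitInterval => p.1.snd i :=
    fun i => (continuous_apply i).comp (XA.continuous_snd.comp continuous_fst)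
  exact ((XA.continuous_fst.comp continuous_fst).prodMk (continuous_pi fun i => h _)).prodMk
    ((h _).prodMk continuous_snd)

omit [Fintype (G ⧸ A)] in
theorem isProperMap_crd : IsProperMap (crd : XA X A (m + 1) × unitInterval → _) := by
  let g : (X × (Fin m → H733.Star (G ⧸ A))) × (H733.Star (G ⧸ A) × unitInterval) →
      (X × (Fin (m + 1) → H733.Star (G ⧸ A))) × unitInterval := fun q =>
    ((q.1.1, (Fin.snoc q.1.2 q.2.1 : Fin (m + 1) → H733.Star (G ⧸ A))), q.2.2)
  have hg : Continuous g := by
    refine Continuous.prodMk (Continuous.prodMk (continuous_fst.comp continuous_fst)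
      (continuous_pi fun i => ?_)) (continuous_snd.comp continuous_snd)
    refine Fin.lastCases ?_ (fun i' => ?_) i
    · simp only [Fin.snoc_last]
      exact continuous_fst.comp continuous_snd
    · simp only [Fin.snoc_castSucc]
      exact (continuous_apply i').comp (continuous_snd.comp continuous_fst)
  refine isProperMap_of_comp_of_t2 continuous_crd hg ?_
  have h1 : g ∘ crd = Prod.map (fun p : XA X A (m + 1) => (p.fst, p.snd)) id := by
    funext p
    refine Prod.ext (Prod.ext rfl (funext fun i => ?_)) rfl
    refine Fin.lastCases ?_ (fun i' => ?_) i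
    · exact Fin.snoc_last (α := fun _ => H733.Star (G ⧸ A)) ..
    · exact Fin.snoc_castSucc (α := fun _ => H733.Star (G ⧸ A)) ..
  rw [h1]
  exact XA.isClosedEmbedding_val.isProperMap.prodMap isProperMap_id

theorem isProperMap_sg : IsProperMap (sg : XA X A (m + 1) × unitInterval → _) := by
  refine isProperMap_of_comp_of_t2 continuous_sg continuous_crd ?_
  have h1 : crd ∘ sg = Prod.map id (fun p : H733.Star (G ⧸ A) × unitInterval =>
      (shr p.1 p.2, tm p.1 p.2)) ∘ (crd : XA X A (m + 1) × unitInterval → _) := by
    funext p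
    exact Prod.ext (Prod.ext rfl (funext fun i => xshr_castSucc p.1 p.2 i))
      (Prod.ext (xshr_last p.1 p.2) rfl)
  rw [h1]
  exact (isProperMap_id.prodMap isProperMap_shr).comp isProperMap_crd

end xa

end Vale.Agent.P241.H399
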