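import Vale.Agent.P241.H399.Closed
import Vale.Agent.P241.H399.Shr
import Vale.Agent.P241.H399.Cone
import Vale.Agent.P241.H32.Triv
import Vale.Agent.P241.H585.TpFC

/-!
# P241, block CONE: `XA X A m` is a finite `G`-cell space

The complement of `XA X A m` in `XA X A (m + 1)` is `G/A × (X^A × (star J)^m × ℝ)`, where `J` is the
set of the labels with stabiliser `A`.
-/

open CategoryTheory MonoidalCategory OnePoint Topology Filter
open Vale.Agent.P251 Vale.Agent.P251.St Vale.Agent.P251.G Vale.Agent.P251.G.LC
open Vale.Agent.P241.St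

namespace Vale.Agent.P241.H399

open H733 (XA xaG)

section label

variable {G : Type} [Group G] (A : Subgroup G)

/-- the labels with stabiliser `A` -/
abbrev Lab : Type := {a : G ⧸ A // MulAction.stabilizer G a = A}

variable [Finite G]

noncomputable instance : Fintype (Lab A) := Fintype.ofFinite _

theorem fc_starPow (J : Type) [Finite J] (m : ℕ) : St.FC ⟨Fin m → H733.Star J⟩ := by
  rw [fc_iff]
  refine FC.of_homeo (X := LC.of (Fin m → Geo.SI J)) (Y := LC.of (Fin m → H733.Star J))
    (Geo.fc_piFin (Geo.fc_star J) m)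
    { toFun := fun z i => (⟨(z i : Final.starSet J).1,
        (z i : Final.starSet J).2.1, fun a b ha hb => by
          by_contra hab
          rcases (z i : Final.starSet J).2.2 a b hab with h | h
          exacts [ha h, hb h]⟩ : H733.Star J)
      invFun := fun z i => (⟨(z i : J → ℝ), (z i).nonneg, fun a b hab => by
          by_contra hc
          push Not at hc
          exact hab ((z i).eq_of_ne_zero hc.1 hc.2)⟩ : Final.starSet J)
      left_inv := fun _ => rfl
      right_inv := fun _ => rfl
      continuous_toFun := continuous_pi fun i => Continuous.subtype_mk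
        (continuous_subtype_val.comp (continuous_apply i)) _
      continuous_invFun := continuous_pi fun i => Continuous.subtype_mk
        (H733.Star.continuous_coe.comp (continuous_apply i)) _ }

end label

/-! ### The slice -/

section slice

set_option linter.unusedSectionVars false

variable {G : Type} [Group G] [Finite G] {X : GSpace G} {A : Subgroup G} {m : ℕ}

variable (X A m) in
/-- the slice `X^A × (star J)^m × ℝ` -/
abbrev Sl : Space := ((X.fix A).prod ⟨Fin m → H733.Star (Lab A)⟩).prod Rr

theorem fc_sl (hX : GFC G X) : St.FC (Sl X A m) :=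
  fc_prod (fc_prod (H486.fixFC G X hX A) (fc_starPow (Lab A) m)) fc_Rr

/-- the point of `X` -/
def fv (x : (X.fix A).carrier) : X.carrier :=
  Subtype.val (p := fun y => y ∈ MulAction.fixedPoints A X.carrier) x

theorem isEmbedding_fv : IsEmbedding (fv : (X.fix A).carrier → X.carrier) :=
  IsEmbedding.subtypeVal (p := fun y => y ∈ MulAction.fixedPoints A X.carrier)

theorem smul_fv {g : G} (hg : g ∈ A) (x : (X.fix A).carrier) : g • fv x = fv x :=
  Subtype.prop (p := fun y => y ∈ MulAction.fixedPoints A X.carrier) x ⟨g, hg⟩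

/-- the coset of `1` -/
abbrev bs (A : Subgroup G) : G ⧸ A := ((1 : G) : G ⧸ A)

/-- the exponential -/
noncomputable def expN (s : ℝ) : NNReal := ⟨Real.exp s, (Real.exp_pos s).le⟩

theorem isEmbedding_expN : IsEmbedding expN := by
  refine IsEmbedding.of_comp (Continuous.subtype_mk Real.continuous_exp _)
    NNReal.continuous_coe ?_
  exact Real.isOpenEmbedding_exp.isEmbedding

variable (A m) in
/-- the cone coordinates of a point of the slice -/
noncomputable def slc (z : Fin m → H733.Star (Lab A)) (s : ℝ) :
    Fin (m + 1) → H733.Star (G ⧸ A) :=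
  Fin.snoc (fun i => H733.Star.map (Subtype.val : Lab A → G ⧸ A) (z i))
    (H733.Star.ray (bs A) (expN s))

theorem slc_castSucc (z : Fin m → H733.Star (Lab A)) (s : ℝ) (i : Fin m) :
    slc A m z s i.castSucc = H733.Star.map (Subtype.val : Lab A → G ⧸ A) (z i) :=
  Fin.snoc_castSucc (α := fun _ => H733.Star (G ⧸ A)) (H733.Star.ray (bs A) (expN s))
    (fun i => H733.Star.map (Subtype.val : Lab A → G ⧸ A) (z i)) i

theorem slc_last (z : Fin m → H733.Star (Lab A)) (s : ℝ) :
    slc A m z s (Fin.last m) = H733.Star.ray (bs A) (expN s) :=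
  Fin.snoc_last (α := fun _ => H733.Star (G ⧸ A)) (H733.Star.ray (bs A) (expN s))
    (fun i => H733.Star.map (Subtype.val : Lab A → G ⧸ A) (z i))

theorem slc_label (z : Fin m → H733.Star (Lab A)) (s : ℝ) (i : Fin (m + 1)) (a : G ⧸ A) :
    slc A m z s i a ≠ 0 → MulAction.stabilizer G a = A := by
  refine Fin.lastCases ?_ (fun i' => ?_) i
  · rw [slc_last, H733.Star.ray_apply]
    intro h
    split at h
    · rename_i ha
      rw [ha]
      exact MulAction.stabilizer_quotient A
    · exact absurd rfl h
  · rw [slc_castSucc]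
    intro h
    obtain ⟨j, hj, -⟩ := H733.Star.exists_of_map_ne_zero _ _ h
    rw [← hj]
    exact j.2

/-- a point of the slice -/
noncomputable def slp (f : (Sl X A m).carrier) : XA X.carrier A (m + 1) :=
  ⟨(fv f.1.1, slc A m f.1.2 f.2),
    fun i j a b ha hb => (slc_label _ _ i a ha).trans (slc_label _ _ j b hb).symm,
    fun i a ha g hg => by
      rw [slc_label _ _ i a ha] at hg
      exact smul_fv hg f.1.1⟩

theorem slp_fst (f : (Sl X A m).carrier) :
    (slp f).fst = fv f.1.1 := rfl

theorem slp_castSucc (f : (Sl X A m).carrier) (i : Fin m) : (slp f).snd i.castSucc =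
    H733.Star.map (Subtype.val : Lab A → G ⧸ A) ((f.1.2 : Fin m → H733.Star (Lab A)) i) :=
  slc_castSucc _ _ i

theorem slp_last (f : (Sl X A m).carrier) :
    (slp f).snd (Fin.last m) = H733.Star.ray (bs A) (expN f.2) := slc_last _ _

theorem continuous_slp : Continuous (slp : (Sl X A m).carrier → XA X.carrier A (m + 1)) := by
  refine XA.continuous_mk (isEmbedding_fv.continuous.comp (continuous_fst.comp continuous_fst))
    (continuous_pi fun i => ?_)
  refine Fin.lastCases ?_ (fun i' => ?_) i
  · simp only [slp_last]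
    exact (H733.Star.continuous_ray _).comp (isEmbedding_expN.continuous.comp continuous_snd)
  · simp only [slp_castSucc]
    exact (H733.Star.continuous_map _).comp ((continuous_apply i').comp
      (continuous_snd.comp continuous_fst))

theorem isEmbedding_map : IsEmbedding
    (H733.Star.map (Subtype.val : Lab A → G ⧸ A) : H733.Star (Lab A) → _) :=
  (Function.LeftInverse.isClosedEmbedding (f := H733.Star.comap (Subtype.val : Lab A → G ⧸ A)
    Subtype.val_injective) (fun x => H733.Star.comap_map _ Subtype.val_injective x)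
    (H733.Star.continuous_comap _ _) (H733.Star.continuous_map _)).isEmbedding

theorem isEmbedding_slp : IsEmbedding (slp : (Sl X A m).carrier → XA X.carrier A (m + 1)) := by
  let g : XA X.carrier A (m + 1) →
      (X.carrier × (Fin m → H733.Star (G ⧸ A))) × H733.Star (G ⧸ A) := fun p =>
    ((p.fst, fun i => p.snd i.castSucc), p.snd (Fin.last m))
  have hg : Continuous g := by
    have h : ∀ i : Fin (m + 1), Continuous fun p : XA X.carrier A (m + 1) => p.snd i :=
      fun i => (continuous_apply i).comp XA.continuous_snd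
    exact (XA.continuous_fst.prodMk (continuous_pi fun i => h _)).prodMk (h _)
  refine IsEmbedding.of_comp continuous_slp hg ?_
  have h1 : g ∘ (slp : (Sl X A m).carrier → XA X.carrier A (m + 1)) =
      Prod.map (Prod.map (fv : (X.fix A).carrier → X.carrier)
        (Pi.map fun _ => H733.Star.map (Subtype.val : Lab A → G ⧸ A)))
        (H733.Star.ray (bs A) ∘ expN) := by
    funext f
    exact Prod.ext (Prod.ext rfl (funext fun i => slp_castSucc f i)) (slp_last f)
  rw [h1]
  exact (isEmbedding_fv.prodMap (IsEmbedding.piMap fun _ => isEmbedding_map)).prodMap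
    ((H733.Star.isClosedEmbedding_ray _).isEmbedding.comp isEmbedding_expN)

theorem range_slp : Set.range (slp : (Sl X A m).carrier → XA X.carrier A (m + 1)) =
    {p | p.snd (Fin.last m) (bs A) ≠ 0} := by
  ext p
  constructor
  · rintro ⟨f, rfl⟩
    change (slp f).snd (Fin.last m) (bs A) ≠ 0
    rw [slp_last, H733.Star.ray_self]
    exact (Real.exp_pos _).ne'
  · intro hp
    have hp' : p.snd (Fin.last m) (bs A) ≠ 0 := hp
    have hst : MulAction.stabilizer G (bs A) = A := MulAction.stabilizer_quotient A
    have hlab : ∀ i a, p.snd i a ≠ 0 → MulAction.stabilizer G a = A := fun i a ha =>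
      (p.stab_eq ha hp').trans hst
    have hpos : 0 < p.snd (Fin.last m) (bs A) :=
      lt_of_le_of_ne ((p.snd (Fin.last m)).nonneg _) (Ne.symm hp')
    let x : (X.fix A).carrier := (⟨p.fst, fun g =>
      p.smul_fst_of_mem_stab hp' (by rw [hst]; exact g.2)⟩ : MulAction.fixedPoints A X.carrier)
    let z : Fin m → H733.Star (Lab A) := fun i =>
      H733.Star.comap (Subtype.val : Lab A → G ⧸ A) Subtype.val_injective (p.snd i.castSucc)
    refine ⟨((x, z), Real.log (p.snd (Fin.last m) (bs A))), xa_ext rfl (fun i => ?_) ?_⟩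
    · rw [slp_castSucc]
      exact H733.Star.map_comap _ Subtype.val_injective _ fun a ha => ⟨⟨a, hlab _ a ha⟩, rfl⟩
    · rw [slp_last]
      ext a
      rw [H733.Star.ray_apply]
      split
      · rename_i ha
        rw [ha]
        exact Real.exp_log hpos
      · rename_i ha
        by_contra h
        exact ha ((p.snd (Fin.last m)).eq_of_ne_zero (Ne.symm h) hp')

theorem isOpenEmbedding_slp :
    IsOpenEmbedding (slp : (Sl X A m).carrier → XA X.carrier A (m + 1)) := by
  refine ⟨isEmbedding_slp, ?_⟩
  rw [range_slp]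
  exact isOpen_ne_fun ((H733.Star.continuous_eval _).comp
    ((continuous_apply _).comp XA.continuous_snd)) continuous_const

/-- the points of the slice are fixed by `A` -/
theorem smul_slp {g : G} (hg : g ∈ A) (f : (Sl X A m).carrier) : g • slp f = slp f := by
  refine XA.ext (smul_fv hg f.1.1) (funext fun i => ?_)
  ext a
  change (slp f).snd i (g⁻¹ • a) = (slp f).snd i a
  by_cases h1 : (slp f).snd i a = 0
  · by_cases h2 : (slp f).snd i (g⁻¹ • a) = 0
    · rw [h1, h2]
    · have h3 : g ∈ MulAction.stabilizer G (g⁻¹ • a) := by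
        rw [slc_label _ _ i _ h2]
        exact hg
      rw [MulAction.mem_stabilizer_iff, smul_inv_smul] at h3
      rw [← h3]
  · have h3 : g⁻¹ ∈ MulAction.stabilizer G a := by
      rw [slc_label _ _ i _ h1]
      exact A.inv_mem hg
    rw [MulAction.mem_stabilizer_iff.1 h3]

/-! ### The complement -/

variable (X A m) in
/-- the complement of `XA X A m` in `XA X A (m + 1)` -/
abbrev Cp : GSpace G := Geo.xt (cell G A 0) (Sl X A m)

/-- the label -/
def lb (d : (cell G A 0).carrier) : G ⧸ A := (show (G ⧸ A) × (Fin 0 → ℝ) from d).1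

theorem lb_smul (g : G) (d : (cell G A 0).carrier) : lb (g • d) = g • lb d := rfl

theorem lb_injective : Function.Injective (lb : (cell G A 0).carrier → G ⧸ A) := fun d d' h =>
  Prod.ext (x := (show (G ⧸ A) × (Fin 0 → ℝ) from d)) (y := (show (G ⧸ A) × (Fin 0 → ℝ) from d'))
    h (funext fun i => i.elim0)

theorem lb_surjective : Function.Surjective (lb : (cell G A 0).carrier → G ⧸ A) := fun a =>
  ⟨(show (cell G A 0).carrier from ((a, fun i => i.elim0) : (G ⧸ A) × (Fin 0 → ℝ))), rfl⟩

theorem discrete_cell : DiscreteTopology (cell G A 0).carrier := by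
  let _ : TopologicalSpace (G ⧸ A) := ⊥
  have : DiscreteTopology (G ⧸ A) := ⟨rfl⟩
  exact inferInstanceAs (DiscreteTopology ((G ⧸ A) × (Fin 0 → ℝ)))

/-- the first coordinate -/
def sl1 (q : (Cp X A m).carrier) : (cell G A 0).carrier :=
  (show (cell G A 0).carrier × (Sl X A m).carrier from q).1

/-- the point of the slice -/
def sl2 (q : (Cp X A m).carrier) : (Sl X A m).carrier :=
  (show (cell G A 0).carrier × (Sl X A m).carrier from q).2

/-- the inclusion of the complement -/
noncomputable def cpi (q : (Cp X A m).carrier) : XA X.carrier A (m + 1) :=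
  (lb (sl1 q)).out • slp (sl2 q)

theorem smul_slp_eq {g h : G} (hgh : (g : G ⧸ A) = h) (f : (Sl X A m).carrier) :
    g • slp f = h • slp f := by
  have h1 : g⁻¹ * h ∈ A := QuotientGroup.eq.1 hgh
  have h2 := smul_slp h1 f
  rw [mul_smul, inv_smul_eq_iff] at h2
  exact h2.symm

theorem cpi_smul (g : G) (q : (Cp X A m).carrier) : cpi (g • q) = g • cpi q := by
  change (lb (g • sl1 q)).out • slp (sl2 q) = g • (lb (sl1 q)).out • slp (sl2 q)
  rw [← mul_smul]
  refine smul_slp_eq ?_ (sl2 q)
  rw [QuotientGroup.out_eq', lb_smul, ← smul_eq_mul, ← MulAction.Quotient.smul_coe,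
    QuotientGroup.out_eq']

theorem cpi_last (q : (Cp X A m).carrier) {a : G ⧸ A} (h : (cpi q).snd (Fin.last m) a ≠ 0) :
    a = lb (sl1 q) := by
  change (slp (sl2 q)).snd (Fin.last m) ((lb (sl1 q)).out⁻¹ • a) ≠ 0 at h
  rw [slp_last, H733.Star.ray_apply] at h
  split at h
  · rename_i h1
    rw [inv_smul_eq_iff] at h1
    rw [h1, MulAction.Quotient.smul_coe, smul_eq_mul, mul_one, QuotientGroup.out_eq']
  · exact absurd rfl h

theorem cpi_last_ne (q : (Cp X A m).carrier) : (cpi q).snd (Fin.last m) (lb (sl1 q)) ≠ 0 := by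
  change (slp (sl2 q)).snd (Fin.last m) ((lb (sl1 q)).out⁻¹ • lb (sl1 q)) ≠ 0
  have h1 : (lb (sl1 q)).out⁻¹ • lb (sl1 q) = bs A := by
    rw [inv_smul_eq_iff, MulAction.Quotient.smul_coe, smul_eq_mul, mul_one, QuotientGroup.out_eq']
  rw [h1, slp_last, H733.Star.ray_self]
  exact (Real.exp_pos _).ne'

theorem cpi_injective : Function.Injective (cpi : (Cp X A m).carrier → _) := by
  intro q q' h
  have h1 : sl1 q = sl1 q' := lb_injective (cpi_last q' (h ▸ cpi_last_ne q))
  refine Prod.ext h1 (isEmbedding_slp.injective ?_)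
  have h2 : (lb (sl1 q)).out • slp (sl2 q) = (lb (sl1 q')).out • slp (sl2 q') := h
  rw [h1] at h2
  exact smul_left_cancel _ h2

theorem range_cpi : Set.range (cpi : (Cp X A m).carrier → _) =
    {p | p.snd (Fin.last m) ≠ 0} := by
  ext p
  constructor
  · rintro ⟨q, rfl⟩ h
    exact cpi_last_ne q (by rw [h]; rfl)
  · intro hp
    obtain ⟨a, ha⟩ := H733.Star.exists_ne_zero hp
    obtain ⟨d, rfl⟩ := lb_surjective a
    have h1 : (lb d).out • bs A = lb d := by
      rw [MulAction.Quotient.smul_coe, smul_eq_mul, mul_one, QuotientGroup.out_eq']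
    have h2 : (lb d).out⁻¹ • p ∈
        Set.range (slp : (Sl X A m).carrier → XA X.carrier A (m + 1)) := by
      rw [range_slp]
      change p.snd (Fin.last m) ((lb d).out⁻¹⁻¹ • bs A) ≠ 0
      rw [inv_inv, h1]
      exact ha
    obtain ⟨f, hf⟩ := h2
    refine ⟨(d, f), ?_⟩
    change (lb d).out • slp f = p
    rw [hf, smul_inv_smul]

theorem isOpenEmbedding_cpi : IsOpenEmbedding (cpi : (Cp X A m).carrier → _) := by
  have hd : DiscreteTopology (cell G A 0).carrier := discrete_cell
  refine IsOpenEmbedding.of_continuous_injective_isOpenMap ?_ cpi_injective ?_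
  · exact continuous_prod_of_discrete_left.2 fun d =>
      (continuous_const_smul (lb d).out).comp continuous_slp
  · refine isOpenMap_prod_of_discrete_left.2 fun d => ?_
    exact (isOpenMap_smul (lb d).out).comp isOpenEmbedding_slp.isOpenMap

end slice

/-! ### The theorem -/

/-- `XA X A 0 = X` -/
def xaZero {G : Type} [Group G] [Finite G] (X : GSpace G) (A : Subgroup G) :
    X.carrier ≃ₜ (xaG X A 0).carrier where
  toFun := XA.incl
  invFun := XA.fst
  left_inv _ := rfl
  right_inv _ := XA.ext rfl (funext fun i => i.elim0)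
  continuous_toFun := XA.isClosedEmbedding_incl.continuous
  continuous_invFun := XA.continuous_fst

/-- **`XA X A m` is a finite `G`-cell space.** -/
theorem xaGFC : XaGFC := by
  intro G _ _ X A k hX
  induction k with
  | zero => exact H32.gfc_of_homeo hX (xaZero X A) fun g x => rfl
  | succ m ih =>
    let _ : Fintype (G ⧸ A) := Fintype.ofFinite _
    refine gfc_of_closed (A := xaG X A m) (B := xaG X A (m + 1)) (C := Cp X A m) XA.succ cpi
      XA.isClosedEmbedding_succ isOpenEmbedding_cpi ?_ (fun g => XA.succ_smul g) cpi_smul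
      sg continuous_sg (isProperMap_iff_tendsto_cocompact.1 isProperMap_sg).2 sg_zero sg_succ
      sg_range sg_smul ih (H32.gfc_xt (.cell A 0) (fc_sl hX))
    have h1 : Set.range (XA.succ : XA X.carrier A m → _) =
        {p : XA X.carrier A (m + 1) | p.snd (Fin.last m) = 0} := by
      ext _
      exact ⟨fun ⟨q, hq⟩ => hq ▸ XA.succ_snd_last q, fun h => ⟨_, succ_pred h⟩⟩
    rw [h1, range_cpi]
    exact isCompl_compl

end Vale.Agent.P241.H399
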