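import Vale.Agent.P241.H399.Rank
import Vale.Agent.P241.H399.XaGfc
import Vale.Agent.P241.BD2.KAll
import Vale.Agent.P241.H32.Triv

/-!
# P241, block CONE: the cone step

* `gfAll : GFAll S p` ; `xtGFC : XtGFC` ;
* `coneG_of_gfc : H132.ConeG S p` from the closure properties `XtGFC`, `XaGFC` of finite `G`-cell
  spaces; `coneG_of_xa` : from `XaGFC`;
* `coneG : H132.ConeG S p`.
-/

open Vale.Agent.P251.St Vale.Agent.P241.St

namespace Vale.Agent.P241.H399

/-- `X × S` is a finite `G`-cell space. -/
theorem xtGFC : XtGFC := fun _ _ _ _ _ hX hS => H32.gfc_xt hX hS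

variable {T : SHCat} (S : Susp T) (p : ℕ) [Fact p.Prime]

/-- the homotopy of every Morava `K`-theory is a graded field -/
theorem gfAll : H435.GFAll S p := fun _ _ hK => ⟨_, BD2.gfield hK⟩

/-- **The cone step** from the closure properties of finite `G`-cell spaces. -/
theorem coneG_of_gfc (hxt : XtGFC) (hxa : XaGFC) : H132.ConeG S p :=
  coneG_of S p hxt hxa (gfAll S p)

/-- **The cone step** from the one remaining closure property. -/
theorem coneG_of_xa (hxa : XaGFC) : H132.ConeG S p := coneG_of_gfc S p xtGFC hxa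

/-- **The cone step.** -/
theorem coneG : H132.ConeG S p := coneG_of_xa S p xaGFC

end Vale.Agent.P241.H399
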