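import Vale.Agent.P241.H399.Glue
import Vale.Agent.P241.H733.Defs
import Vale.Agent.P241.Final.Weyl

/-!
# P241, block CONE: the `b`-form on the `G`-space `XA X A m`

* `phi A : N(A) / A → G / A`;
* `j1 X A m : X^A × (star (N(A) / A))^m → XA X A m`, a closed embedding, `jL` in `LC`;
* `exists_ext` : a `b`-form for the `N(A) / A`-space `X^A` extends to a `G`-map
  `b : (XA X A (k + 1) × P)⁺ → (XA X A k × Q)⁺` with `b (x, y) = (x, v y)` for `x ∈ X`.
-/

open CategoryTheory MonoidalCategory OnePoint Topology MulAction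
open Vale.Agent.P251.G Vale.Agent.P251.G.LC Vale.Agent.P251.St Vale.Agent.P241.St
open Vale.Agent.P241.Geo Vale.Agent.P241.H733 Vale.Agent.P241.Final Vale.Agent.P241.H137

noncomputable section

namespace Vale.Agent.P241.H399

variable {G : Type} [Group G]

/-! ### The labels -/

section phi

variable (A : Subgroup G)

/-- the inclusion `N(A) / A → G / A` -/
def phi : Weyl A → G ⧸ A :=
  Quotient.map' (s₁ := QuotientGroup.leftRel (A.subgroupOf (NA A))) (s₂ := QuotientGroup.leftRel A)
    (fun n : NA A => (n : G)) fun n n' h => by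
      rw [QuotientGroup.leftRel_apply] at h ⊢
      exact h

theorem phi_mk (n : NA A) : phi A (QuotientGroup.mk' (A.subgroupOf (NA A)) n) = ((n : G) : G ⧸ A) :=
  rfl

theorem phi_injective : Function.Injective (phi A) := by
  intro u u' h
  obtain ⟨n, rfl⟩ := QuotientGroup.mk'_surjective (A.subgroupOf (NA A)) u
  obtain ⟨n', rfl⟩ := QuotientGroup.mk'_surjective (A.subgroupOf (NA A)) u'
  rw [phi_mk, phi_mk, QuotientGroup.eq] at h
  exact (QuotientGroup.eq (s := A.subgroupOf (NA A))).2 h

theorem phi_smul (n : NA A) (u : Weyl A) :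
    phi A (QuotientGroup.mk' (A.subgroupOf (NA A)) n * u) = (n : G) • phi A u := by
  obtain ⟨n', rfl⟩ := QuotientGroup.mk'_surjective (A.subgroupOf (NA A)) u
  rfl

theorem mem_normalizer_of_smul {g : G} {u u' : Weyl A} (h : g • phi A u = phi A u') :
    g ∈ NA A := by
  obtain ⟨n, rfl⟩ := QuotientGroup.mk'_surjective (A.subgroupOf (NA A)) u
  obtain ⟨n', rfl⟩ := QuotientGroup.mk'_surjective (A.subgroupOf (NA A)) u'
  rw [phi_mk, phi_mk, MulAction.Quotient.smul_coe, smul_eq_mul, QuotientGroup.eq] at h
  -- `(g n)⁻¹ n' ∈ A`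
  have h1 : (g * n)⁻¹ * n' ∈ NA A := Subgroup.le_normalizer h
  have h2 : g = n' * ((g * n)⁻¹ * n')⁻¹ * (n : G)⁻¹ := by group
  rw [h2]
  exact (NA A).mul_mem ((NA A).mul_mem n'.2 ((NA A).inv_mem h1)) ((NA A).inv_mem n.2)

theorem stabilizer_phi (u : Weyl A) : stabilizer G (phi A u) = A := by
  obtain ⟨n, rfl⟩ := QuotientGroup.mk'_surjective (A.subgroupOf (NA A)) u
  rw [phi_mk, XA.stabilizer_coset]
  exact Subgroup.mem_normalizer_iff_map_conj_eq.1 n.2

theorem mem_range_phi {a : G ⧸ A} (h : stabilizer G a = A) : a ∈ Set.range (phi A) := by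
  obtain ⟨g, rfl⟩ := QuotientGroup.mk_surjective a
  rw [XA.stabilizer_coset] at h
  have hg : g ∈ NA A := Subgroup.mem_normalizer_iff_map_conj_eq.2 h
  exact ⟨QuotientGroup.mk' (A.subgroupOf (NA A)) ⟨g, hg⟩, rfl⟩

end phi

/-! ### The closed piece -/

section piece

variable [Finite G] (X : GSpace G) (A : Subgroup G) (m : ℕ)

instance instFinite_weyl : Finite (Weyl A) := Quotient.finite _

/-- the `W`-space `X^A × (star W)^m` -/
abbrev WX : GSpace (Weyl A) := (weyl X A).prod (tp (Weyl A) (Weyl A) m)

/-- the star coordinates of a point of `X^A × (star W)^m` -/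
def cds (q : (WX X A m).carrier) : Fin m → H733.Star (Weyl A) := tpHomeo (Weyl A) m q.2

/-- the point of `X^A` -/
def pnt (q : (WX X A m).carrier) : X.carrier :=
  (show MulAction.fixedPoints A X.carrier from q.1).1

variable {X A m}

theorem wx_ext {q q' : (WX X A m).carrier} (h1 : pnt X A m q = pnt X A m q')
    (h2 : cds X A m q = cds X A m q') : q = q' :=
  Prod.ext (Subtype.ext h1) ((tpHomeo (Weyl A) m).injective h2)

theorem continuous_pnt : Continuous (pnt X A m) :=
  (continuous_subtype_val (p := fun x => x ∈ MulAction.fixedPoints A X.carrier)).comp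
    continuous_fst

theorem continuous_cds : Continuous (cds X A m) :=
  (tpHomeo (Weyl A) m).continuous.comp continuous_snd

theorem pnt_smul (n : NA A) (q : (WX X A m).carrier) :
    pnt X A m (QuotientGroup.mk' (A.subgroupOf (NA A)) n • q) = (n : G) • pnt X A m q := rfl

theorem cds_smul (w : Weyl A) (q : (WX X A m).carrier) (i : Fin m) :
    cds X A m (w • q) i = w • cds X A m q i := rfl

theorem smul_pnt_of_mem {g : G} (hg : g ∈ A) (q : (WX X A m).carrier) :
    g • pnt X A m q = pnt X A m q :=
  (show MulAction.fixedPoints A X.carrier from q.1).2 ⟨g, hg⟩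

/-- the finite type structure used to push labels forward -/
abbrev ftW (A : Subgroup G) : Fintype (Weyl A) := Fintype.ofFinite _

/-- push forward of labels -/
def pushL (A : Subgroup G) (x : H733.Star (Weyl A)) : H733.Star (G ⧸ A) :=
  letI := ftW A
  Star.map (phi A) x

theorem continuous_pushL : Continuous (pushL A) :=
  letI := ftW A
  Star.continuous_map (phi A)

theorem pushL_injective : Function.Injective (pushL A) :=
  letI := ftW A
  Star.map_injective (phi_injective A)

@[simp] theorem pushL_zero : pushL A 0 = 0 :=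
  letI := ftW A
  Star.map_zero (phi A)

theorem pushL_eq_zero_iff {x : H733.Star (Weyl A)} : pushL A x = 0 ↔ x = 0 :=
  ⟨fun h => pushL_injective (h.trans pushL_zero.symm), fun h => by rw [h, pushL_zero]⟩

theorem exists_of_pushL_ne_zero {x : H733.Star (Weyl A)} {a : G ⧸ A} (h : pushL A x a ≠ 0) :
    ∃ u, phi A u = a := by
  let _ := ftW A
  obtain ⟨u, hu, -⟩ := Star.exists_of_map_ne_zero (phi A) x h
  exact ⟨u, hu⟩

theorem pushL_smul (n : NA A) (x : H733.Star (Weyl A)) :
    pushL A (QuotientGroup.mk' (A.subgroupOf (NA A)) n • x) = (n : G) • pushL A x := by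
  let _ := ftW A
  let _ : MulAction (NA A) (Weyl A) :=
    MulAction.compHom (Weyl A) (QuotientGroup.mk' (A.subgroupOf (NA A)))
  exact Star.map_smul (G := NA A) (phi A) (fun n u => phi_smul A n u) n x

theorem pushL_comap (y : H733.Star (G ⧸ A)) (hy : ∀ a, y a ≠ 0 → stabilizer G a = A) :
    pushL A (Star.comap (phi A) (phi_injective A) y) = y :=
  letI := ftW A
  Star.map_comap (phi A) (phi_injective A) y fun a ha => mem_range_phi A (hy a ha)

theorem comap_pushL (x : H733.Star (Weyl A)) :
    Star.comap (phi A) (phi_injective A) (pushL A x) = x :=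
  letI := ftW A
  Star.comap_map (phi A) (phi_injective A) x

theorem isClosedEmbedding_pushL : IsClosedEmbedding (pushL A) :=
  Function.LeftInverse.isClosedEmbedding (f := Star.comap (phi A) (phi_injective A))
    comap_pushL (Star.continuous_comap _ _) continuous_pushL

variable (X A m)

/-- `X^A × (star W)^m → XA X A m` -/
def j1 (q : (WX X A m).carrier) : (xaG X A m).carrier :=
  ⟨(pnt X A m q, fun i => pushL A (cds X A m q i)), by
    constructor
    · intro i j a b ha hb
      obtain ⟨u, rfl⟩ := exists_of_pushL_ne_zero ha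
      obtain ⟨u', rfl⟩ := exists_of_pushL_ne_zero hb
      rw [stabilizer_phi, stabilizer_phi]
    · intro i a ha g hg
      obtain ⟨u, rfl⟩ := exists_of_pushL_ne_zero ha
      rw [stabilizer_phi] at hg
      exact smul_pnt_of_mem hg q⟩

variable {X A m}

theorem j1_fst (q : (WX X A m).carrier) : XA.fst (j1 X A m q) = pnt X A m q := rfl

theorem j1_snd (q : (WX X A m).carrier) (i : Fin m) :
    XA.snd (j1 X A m q) i = pushL A (cds X A m q i) := rfl

theorem j1_injective : Function.Injective (j1 X A m) := by
  intro q q' h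
  refine wx_ext (congrArg XA.fst h) (funext fun i => pushL_injective ?_)
  exact congrFun (congrArg XA.snd h) i

theorem j1_smul (n : NA A) (q : (WX X A m).carrier) :
    j1 X A m (QuotientGroup.mk' (A.subgroupOf (NA A)) n • q) = (n : G) • j1 X A m q := by
  refine XA.ext (pnt_smul n q) (funext fun i => ?_)
  rw [j1_snd, cds_smul, pushL_smul, XA.smul_snd, j1_snd]

theorem isClosedEmbedding_j1 : IsClosedEmbedding (j1 X A m) := by
  have h1 : IsClosedEmbedding fun x : MulAction.fixedPoints A X.carrier => (x : X.carrier) :=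
    (X.isClosed_fixedPoints A).isClosedEmbedding_subtypeVal
  have h2 : IsClosedEmbedding fun (z : Fin m → H733.Star (Weyl A)) (i : Fin m) => pushL A (z i) :=
    Function.LeftInverse.isClosedEmbedding
      (f := fun (z : Fin m → H733.Star (G ⧸ A)) (i : Fin m) => Star.comap (phi A) (phi_injective A) (z i))
      (fun z => funext fun i => comap_pushL (z i))
      (continuous_pi fun i => (Star.continuous_comap _ _).comp (continuous_apply i))
      (continuous_pi fun i => continuous_pushL.comp (continuous_apply i))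
  have h3 : IsClosedEmbedding (Prod.map (fun x : MulAction.fixedPoints A X.carrier =>
      (x : X.carrier)) fun z : starPow (Weyl A) m => fun i : Fin m =>
        pushL A (tpHomeo (Weyl A) m z i)) :=
    h1.prodMap (h2.comp (tpHomeo (Weyl A) m).isClosedEmbedding)
  exact (XA.isClosedEmbedding_val (X := X.carrier) (A := A) (m := m)).of_comp_iff.1 h3

end piece

/-! ### The extension -/

section ext

variable [Finite G] {X : GSpace G} {A : Subgroup G} {m : ℕ}

theorem exists_j1 {q : (xaG X A m).carrier} {i : Fin m} {a : G ⧸ A} (ha : XA.snd q i a ≠ 0)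
    (hs : stabilizer G a = A) : ∃ w, j1 X A m w = q := by
  have h1 : ∀ g ∈ A, g • XA.fst q = XA.fst q := fun g hg =>
    XA.smul_fst_of_mem_stab q ha (by rw [hs]; exact hg)
  have h2 : ∀ (i' : Fin m) (b : G ⧸ A), XA.snd q i' b ≠ 0 → stabilizer G b = A := fun i' b hb =>
    (XA.stab_eq q hb ha).trans hs
  refine ⟨((show MulAction.fixedPoints A X.carrier from
    ⟨XA.fst q, fun g => h1 g g.2⟩), (tpHomeo (Weyl A) m).symm fun i' =>
      Star.comap (phi A) (phi_injective A) (XA.snd q i')), ?_⟩
  exact XA.ext rfl (funext fun i' => pushL_comap (XA.snd q i') (h2 i'))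

theorem exists_smul_j1 {p : (xaG X A m).carrier} (hp : XA.snd p ≠ 0) :
    ∃ (g : G) (w : (WX X A m).carrier), g • j1 X A m w = p := by
  obtain ⟨i, a, ha⟩ := XA.exists_label hp
  obtain ⟨g, rfl⟩ := QuotientGroup.mk_surjective a
  have h1 : XA.snd (g⁻¹ • p) i ((1 : G) : G ⧸ A) ≠ 0 := by
    rw [XA.smul_snd, Star.smul_apply, inv_inv, MulAction.Quotient.smul_coe, smul_eq_mul, mul_one]
    exact ha
  obtain ⟨w, hw⟩ := exists_j1 (q := (g⁻¹ • p : (xaG X A m).carrier)) h1
    (MulAction.stabilizer_quotient A)
  exact ⟨g, w, by rw [hw, smul_inv_smul]⟩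

/-- the label of a nonzero coordinate determines the group element up to `N(A)` -/
theorem mem_NA_of_smul_j1 {g : G} {w w' : (WX X A m).carrier} (h : g • j1 X A m w = j1 X A m w')
    (hw : cds X A m w ≠ 0) : g ∈ NA A := by
  obtain ⟨i, hi⟩ : ∃ i, cds X A m w i ≠ 0 := by
    by_contra hc
    push Not at hc
    exact hw (funext hc)
  have h1 : pushL A (cds X A m w i) ≠ 0 := fun h => hi (pushL_eq_zero_iff.1 h)
  obtain ⟨a, ha⟩ := Star.exists_ne_zero h1
  obtain ⟨u, rfl⟩ := exists_of_pushL_ne_zero ha
  have h2 : pushL A (cds X A m w' i) (g • phi A u) ≠ 0 := by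
    rw [← j1_snd, ← h, XA.smul_snd, Star.smul_apply, inv_smul_smul, j1_snd]
    exact ha
  obtain ⟨u', hu'⟩ := exists_of_pushL_ne_zero h2
  exact mem_normalizer_of_smul A hu'.symm

theorem eq_smul_of_smul_j1 {n : NA A} {w w' : (WX X A m).carrier}
    (h : (n : G) • j1 X A m w = j1 X A m w') :
    w' = QuotientGroup.mk' (A.subgroupOf (NA A)) n • w :=
  j1_injective (by rw [j1_smul, h])

/-- the zero section of `X^A × (star W)^m` -/
def wz (X : GSpace G) (A : Subgroup G) (m : ℕ) (x : (weyl X A).carrier) : (WX X A m).carrier :=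
  (x, tpZero (Weyl A) (Weyl A) m)

theorem eq_wz {w : (WX X A m).carrier} (h : cds X A m w = 0) : w = wz X A m w.1 :=
  Prod.ext rfl ((tpHomeo (Weyl A) m).injective
    (h.trans (tpHomeo_zero (G := Weyl A) (I := Weyl A) (k := m)).symm))

theorem cds_wz (x : (weyl X A).carrier) : cds X A m (wz X A m x) = 0 := rfl

theorem j1_wz (x : (weyl X A).carrier) :
    j1 X A m (wz X A m x) = XA.incl (pnt X A m (wz X A m x)) := by
  refine XA.ext rfl (funext fun i => ?_)
  rw [j1_snd, cds_wz]
  exact pushL_zero

theorem cds_eq_zero_of_snd {w : (WX X A m).carrier} (h : XA.snd (j1 X A m w) = 0) :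
    cds X A m w = 0 := by
  funext i
  exact pushL_eq_zero_iff.1 (congrFun h i)

variable (X A m)

/-- `j1` in `LC` -/
def jL : L (WX X A m) ⟶ L (xaG X A m) :=
  ofClosed (X := L (WX X A m)) (Y := L (xaG X A m)) (j1 X A m) isClosedEmbedding_j1

/-- the inclusion of `X` in `LC` -/
def inclL : L X ⟶ L (xaG X A m) :=
  ofClosed (X := L X) (Y := L (xaG X A m)) XA.incl XA.isClosedEmbedding_incl

theorem app_jL_coe (w : (WX X A m).carrier) :
    app (jL X A m) (w : OnePoint (WX X A m).carrier) =
      ((j1 X A m w : (xaG X A m).carrier) : OnePoint (xaG X A m).carrier) := rfl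

theorem app_inclL_coe (x : X.carrier) :
    app (inclL X A m) (x : OnePoint X.carrier) =
      ((XA.incl x : (xaG X A m).carrier) : OnePoint (xaG X A m).carrier) := rfl

theorem eqv_inclL : Eqv (inclL X A m) := by
  intro g
  apply hom_ext
  intro x
  rfl

/-- `j1 × 1` in `LC` -/
def jP (P : Space) : L (xt (WX X A m) P) ⟶ L (xt (xaG X A m) P) :=
  (pt (WX X A m) P).inv ≫ (jL X A m ▷ toLC P) ≫ (pt (xaG X A m) P).hom

variable {X A m}

theorem app_pt_hom {H : Type} [Group H] (Z : GSpace H) (P : Space)
    (z : OnePoint (L Z ⊗ toLC P : LC)) : app (pt Z P).hom z = z := by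
  induction z using OnePoint.rec with
  | infty => rfl
  | coe z => rfl

theorem app_pt_inv {H : Type} [Group H] (Z : GSpace H) (P : Space)
    (z : OnePoint (L Z ⊗ toLC P : LC)) : app (pt Z P).inv z = z := by
  induction z using OnePoint.rec with
  | infty => rfl
  | coe z => rfl

theorem app_jP_smash {P : Space} (w : OnePoint (WX X A m).carrier) (y : OnePoint P.carrier) :
    app (jP X A m P) (LC.smash w y) = LC.smash (app (jL X A m) w) y := by
  refine (app_pt_hom (xaG X A m) P (app (jL X A m ▷ toLC P)
    (app (pt (WX X A m) P).inv (LC.smash w y)))).trans ?_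
  refine (congrArg (app (jL X A m ▷ toLC P)) (app_pt_inv _ _ _)).trans ?_
  exact app_whiskerRight_smash (jL X A m) (toLC P) w y

theorem app_act_xt_smash {H : Type} [Group H] (Z : GSpace H) (P : Space) (g : H)
    (x : OnePoint Z.carrier) (y : OnePoint P.carrier) :
    app (act (xt Z P) g) (LC.smash x y) = LC.smash (app (act Z g) x) y := by
  have h := congrArg (fun k => app k (LC.smash x y)) (pt_act Z P g)
  simp only [app_comp] at h
  rw [app_whiskerRight_smash, app_pt_hom, app_pt_hom] at h
  exact h

theorem jP_act {P : Space} (n : NA A) (w : OnePoint (xt (WX X A m) P).carrier) :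
    app (jP X A m P) (app (act (xt (WX X A m) P) (QuotientGroup.mk' (A.subgroupOf (NA A)) n)) w) =
      app (act (xt (xaG X A m) P) (n : G)) (app (jP X A m P) w) := by
  induction w using OnePoint.rec with
  | infty => rfl
  | coe w =>
    obtain ⟨w, y⟩ := w
    exact congrArg (fun q : (xaG X A m).carrier =>
      (OnePoint.some (q, y) : OnePoint (xt (xaG X A m) P).carrier)) (j1_smul n w)

theorem app_wr_smash {H : Type} [Group H] {Z Z' : GSpace H} (f : L Z ⟶ L Z') (P : Space)
    (x : OnePoint Z.carrier) (y : OnePoint P.carrier) :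
    app (wr f P) (LC.smash x y) = LC.smash (app f x) y := by
  refine (app_pt_hom Z' P (app (f ▷ toLC P) (app (pt Z P).inv (LC.smash x y)))).trans ?_
  refine (congrArg (app (f ▷ toLC P)) (app_pt_inv _ _ _)).trans ?_
  exact app_whiskerRight_smash f (toLC P) x y

theorem app_wl_smash {H : Type} [Group H] (Z : GSpace H) {P Q : Space} (f : toLC P ⟶ toLC Q)
    (x : OnePoint Z.carrier) (y : OnePoint P.carrier) :
    app (wl Z f) (LC.smash x y) = LC.smash x (app f y) := by
  refine (app_pt_hom Z Q (app (L Z ◁ f) (app (pt Z P).inv (LC.smash x y)))).trans ?_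
  refine (congrArg (app (L Z ◁ f)) (app_pt_inv _ _ _)).trans ?_
  exact app_whiskerLeft_smash (L Z) f x y

theorem app_jP_eq_infty {P : Space} {d : OnePoint (xt (WX X A m) P).carrier}
    (h : app (jP X A m P) d = ∞) : d = ∞ := by
  induction d using OnePoint.rec with
  | infty => rfl
  | coe d => exact absurd h (OnePoint.coe_ne_infty (X := (xt (xaG X A m) P).carrier) _)

theorem app_act_eqv {H : Type} [Group H] {Z Z' : GSpace H} {f : L Z ⟶ L Z'} (hf : Eqv f) (g : H)
    (z : OnePoint (L Z)) : app (act Z' g) (app f z) = app f (app (act Z g) z) := by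
  rw [← app_comp, ← app_comp, hf g]

/-- `x ↦ (x, v)` from `X × P` to `XA X A k × Q` -/
def epsL (X : GSpace G) (A : Subgroup G) (k : ℕ) {P Q : Space} (v : Map P Q) :
    L (xt X P) ⟶ L (xt (xaG X A k) Q) :=
  wr (inclL X A k) P ≫ wl (xaG X A k) (toHom v)

section pieces

variable {k : ℕ} {P Q : Space} {v : Map P Q}

theorem eqv_epsL : Eqv (epsL X A k v) := (eqv_wr (eqv_inclL X A k) P).comp (eqv_wl _ _)

theorem app_epsL_smash (x : OnePoint X.carrier) (y : OnePoint P.carrier) :
    app (epsL X A k v) (LC.smash x y) = LC.smash (app (inclL X A k) x) (v.toFun y) := by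
  refine (congrArg (app (wl (xaG X A k) (toHom v))) (app_wr_smash _ P x y)).trans ?_
  exact app_wl_smash _ (toHom v) _ y

theorem act_epsL (g : G) (x : OnePoint X.carrier) (y : OnePoint P.carrier) :
    app (act (xt (xaG X A k) Q) g) (app (epsL X A k v) (LC.smash x y)) =
      app (epsL X A k v) (LC.smash (app (act X g) x) y) :=
  (app_act_eqv (eqv_epsL (v := v)) g (LC.smash x y)).trans
    (congrArg (app (epsL X A k v)) (app_act_xt_smash X P g x y))

theorem injective_incl : Function.Injective (app (wr (inclL X A k) P)) := by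
  intro x x' hx
  induction x using OnePoint.rec with
  | infty =>
    induction x' using OnePoint.rec with
    | infty => rfl
    | coe x' => exact absurd hx.symm (OnePoint.coe_ne_infty (X := (xt (xaG X A k) P).carrier) _)
  | coe x =>
    induction x' using OnePoint.rec with
    | infty => exact absurd hx (OnePoint.coe_ne_infty (X := (xt (xaG X A k) P).carrier) _)
    | coe x' =>
      have h1 := OnePoint.coe_injective (X := (xt (xaG X A k) P).carrier) hx
      have h2 : x.1 = x'.1 := congrArg (fun z : (xt (xaG X A k) P).carrier => XA.fst z.1) h1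
      have h3 : x.2 = x'.2 := congrArg (fun z : (xt (xaG X A k) P).carrier => z.2) h1
      exact congrArg OnePoint.some (Prod.ext h2 h3)

theorem cover (q : (xt (xaG X A k) P).carrier) :
    (∃ x, app (wr (inclL X A k) P) x = (q : OnePoint (xt (xaG X A k) P).carrier)) ∨
      ∃ (g : G) (d : OnePoint (xt (WX X A k) P).carrier),
        app (act (xt (xaG X A k) P) g) (app (jP X A k P) d) =
          (q : OnePoint (xt (xaG X A k) P).carrier) := by
  obtain ⟨p, (y : P.carrier)⟩ := q
  by_cases hp : XA.snd p = 0
  · left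
    refine ⟨LC.smash ((XA.fst p : X.carrier) : OnePoint X.carrier) (y : OnePoint P.carrier), ?_⟩
    rw [app_wr_smash, app_inclL_coe, ← XA.eq_incl hp]
    rfl
  · right
    obtain ⟨g, w, hw⟩ := exists_smul_j1 hp
    refine ⟨g, LC.smash (w : OnePoint (WX X A k).carrier) (y : OnePoint P.carrier), ?_⟩
    exact congrArg (fun z : (xaG X A k).carrier =>
      (OnePoint.some (z, y) : OnePoint (xt (xaG X A k) P).carrier)) hw

variable {b : L (xt (WX X A (k + 1)) P) ⟶ L (xt (WX X A k) Q)}

theorem beta_zero (hbz : ∀ (x : (weyl X A).carrier) (y : OnePoint P.carrier),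
      app b (LC.smash ((wz X A (k + 1) x : (WX X A (k + 1)).carrier) :
        OnePoint (WX X A (k + 1)).carrier) y) =
        LC.smash ((wz X A k x : (WX X A k).carrier) : OnePoint (WX X A k).carrier) (v.toFun y))
    (x : (weyl X A).carrier) (y : OnePoint P.carrier) :
    app (b ≫ jP X A k Q) (LC.smash ((wz X A (k + 1) x : (WX X A (k + 1)).carrier) :
        OnePoint (WX X A (k + 1)).carrier) y) =
      app (epsL X A k v) (LC.smash ((pnt X A k (wz X A k x) : X.carrier) : OnePoint X.carrier) y) := by
  refine (congrArg (app (jP X A k Q)) (hbz x y)).trans (Eq.trans ?_ (app_epsL_smash _ y).symm)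
  refine (app_jP_smash _ _).trans ?_
  exact congrArg (fun z : (xaG X A k).carrier =>
    LC.smash (z : OnePoint (xaG X A k).carrier) (v.toFun y)) (j1_wz x)

theorem compat_zero (hbz : ∀ (x : (weyl X A).carrier) (y : OnePoint P.carrier),
      app b (LC.smash ((wz X A (k + 1) x : (WX X A (k + 1)).carrier) :
        OnePoint (WX X A (k + 1)).carrier) y) =
        LC.smash ((wz X A k x : (WX X A k).carrier) : OnePoint (WX X A k).carrier) (v.toFun y))
    {g : G} {w w' : (WX X A (k + 1)).carrier} (y : P.carrier)
    (h2 : g • j1 X A (k + 1) w = j1 X A (k + 1) w') (hw : cds X A (k + 1) w = 0) :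
    app (act (xt (xaG X A k) Q) g) (app (b ≫ jP X A k Q)
      (LC.smash (w : OnePoint (WX X A (k + 1)).carrier) (y : OnePoint P.carrier))) =
    app (b ≫ jP X A k Q)
      (LC.smash (w' : OnePoint (WX X A (k + 1)).carrier) (y : OnePoint P.carrier)) := by
  have hw' : cds X A (k + 1) w' = 0 := by
    apply cds_eq_zero_of_snd
    rw [← h2]
    funext i
    rw [XA.smul_snd, j1_snd, hw]
    exact congrArg (fun z => g • z) pushL_zero
  have h4 : g • pnt X A (k + 1) w = pnt X A (k + 1) w' := congrArg XA.fst h2
  have h5 : app (b ≫ jP X A k Q)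
      (LC.smash (w : OnePoint (WX X A (k + 1)).carrier) (y : OnePoint P.carrier)) =
      app (epsL X A k v) (LC.smash ((pnt X A k (wz X A k w.1) : X.carrier) : OnePoint X.carrier)
        (y : OnePoint P.carrier)) := by
    conv_lhs => rw [eq_wz hw]
    exact beta_zero hbz w.1 (y : OnePoint P.carrier)
  have h6 : app (b ≫ jP X A k Q)
      (LC.smash (w' : OnePoint (WX X A (k + 1)).carrier) (y : OnePoint P.carrier)) =
      app (epsL X A k v) (LC.smash ((pnt X A k (wz X A k w'.1) : X.carrier) : OnePoint X.carrier)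
        (y : OnePoint P.carrier)) := by
    conv_lhs => rw [eq_wz hw']
    exact beta_zero hbz w'.1 (y : OnePoint P.carrier)
  rw [h6]
  refine (congrArg (app (act (xt (xaG X A k) Q) g)) h5).trans ?_
  refine (act_epsL g _ _).trans ?_
  exact congrArg (fun x : X.carrier => app (epsL X A k v) (LC.smash (x : OnePoint X.carrier)
    (y : OnePoint P.carrier))) h4

theorem compat_smul (hb : Eqv b) {n : NA A} (w : (WX X A (k + 1)).carrier) (y : P.carrier) :
    app (act (xt (xaG X A k) Q) (n : G)) (app (b ≫ jP X A k Q)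
      (LC.smash (w : OnePoint (WX X A (k + 1)).carrier) (y : OnePoint P.carrier))) =
    app (b ≫ jP X A k Q)
      (LC.smash ((QuotientGroup.mk' (A.subgroupOf (NA A)) n • w : (WX X A (k + 1)).carrier) :
        OnePoint (WX X A (k + 1)).carrier) (y : OnePoint P.carrier)) := by
  have h5 := congrArg (fun f => app f
    (LC.smash (w : OnePoint (WX X A (k + 1)).carrier) (y : OnePoint P.carrier)))
    (hb (QuotientGroup.mk' (A.subgroupOf (NA A)) n))
  refine (jP_act n _).symm.trans ?_
  exact congrArg (app (jP X A k Q)) h5.symm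

end pieces

/-- **The extension of the `b`-form** from `X^A` to `X`. -/
theorem exists_ext {k : ℕ} {P Q : Space} {v : Map P Q} (h : BForm (weyl X A) k v) :
    ∃ b : L (xt (xaG X A (k + 1)) P) ⟶ L (xt (xaG X A k) Q), Eqv b ∧
      wr (inclL X A (k + 1)) P ≫ b = wr (inclL X A k) P ≫ wl (xaG X A k) (toHom v) := by
  obtain ⟨b0, hb0, hb1⟩ := h
  let bL : L (xt (WX X A (k + 1)) P) ⟶ L (xt (WX X A k) Q) :=
    toHom (X := (xt (WX X A (k + 1)) P).und) (Y := (xt (WX X A k) Q).und) b0
  have hbL : Eqv bL := (isGMap_iff bL).mp hb0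
  -- the value on the zero section
  have hbz : ∀ (x : (weyl X A).carrier) (y : OnePoint P.carrier),
      app bL (LC.smash ((wz X A (k + 1) x : (WX X A (k + 1)).carrier) :
        OnePoint (WX X A (k + 1)).carrier) y) =
        LC.smash ((wz X A k x : (WX X A k).carrier) : OnePoint (WX X A k).carrier) (v.toFun y) :=
    fun x y => hb1 x y
  clear_value bL
  obtain ⟨F, hF, -, h⟩ := exists_glue (Y := xt (xaG X A (k + 1)) P) (Y' := xt (xaG X A k) Q)
    (j := jP X A (k + 1) P) (β := bL ≫ jP X A k Q) (e := wr (inclL X A (k + 1)) P)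
    (ε := epsL X A k v) cover (by
    intro g d d' hd
    induction d using OnePoint.rec with
    | infty =>
      have h1 : d' = ∞ := app_jP_eq_infty (hd.symm.trans (by rw [app_infty, app_infty]))
      rw [h1, app_infty, app_infty]
    | coe d =>
      induction d' using OnePoint.rec with
      | infty =>
        exact absurd hd (OnePoint.coe_ne_infty (X := (xt (xaG X A (k + 1)) P).carrier) _)
      | coe d' =>
        obtain ⟨w, (y : P.carrier)⟩ := d
        obtain ⟨w', (y' : P.carrier)⟩ := d'
        have h1 := OnePoint.coe_injective (X := (xt (xaG X A (k + 1)) P).carrier) hd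
        have h2 : g • j1 X A (k + 1) w = j1 X A (k + 1) w' :=
          congrArg (fun z : (xt (xaG X A (k + 1)) P).carrier => z.1) h1
        have h3 : y = y' := congrArg (fun z : (xt (xaG X A (k + 1)) P).carrier => z.2) h1
        subst h3
        by_cases hw : cds X A (k + 1) w = 0
        · exact compat_zero hbz y h2 hw
        · have hg : g ∈ NA A := mem_NA_of_smul_j1 h2 hw
          obtain rfl : w' = QuotientGroup.mk' (A.subgroupOf (NA A)) ⟨g, hg⟩ • w :=
            eq_smul_of_smul_j1 (n := ⟨g, hg⟩) h2
          exact compat_smul hbL (n := ⟨g, hg⟩) w y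
    ) (by
    intro d x hd
    induction d using OnePoint.rec with
    | infty =>
      have h1 : x = ∞ := injective_incl (hd.symm.trans (by rw [app_infty, app_infty]))
      rw [h1, app_infty, app_infty]
    | coe d =>
      induction x using OnePoint.rec with
      | infty =>
        exact absurd hd (OnePoint.coe_ne_infty (X := (xt (xaG X A (k + 1)) P).carrier) _)
      | coe x =>
        obtain ⟨w, (y : P.carrier)⟩ := d
        obtain ⟨x, (y' : P.carrier)⟩ := x
        have h1 := OnePoint.coe_injective (X := (xt (xaG X A (k + 1)) P).carrier) hd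
        have h2 : j1 X A (k + 1) w = XA.incl x :=
          congrArg (fun z : (xt (xaG X A (k + 1)) P).carrier => z.1) h1
        have h3 : y = y' := congrArg (fun z : (xt (xaG X A (k + 1)) P).carrier => z.2) h1
        subst h3
        have hw : cds X A (k + 1) w = 0 := cds_eq_zero_of_snd (by rw [h2]; rfl)
        have h4 : pnt X A (k + 1) w = x := congrArg XA.fst h2
        subst h4
        have h5 := beta_zero hbz w.1 (y : OnePoint P.carrier)
        rw [← eq_wz hw] at h5
        exact h5
    ) (fun x x' hx => by rw [injective_incl hx])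
    (fun g x => ⟨app (act (xt X P) g) x, by
      rw [← app_comp, ← app_comp, eqv_wr (eqv_inclL X A (k + 1)) P g],
      by rw [← app_comp, ← app_comp, eqv_epsL (v := v) g]⟩)
  exact ⟨F, hF, h⟩

end ext

end Vale.Agent.P241.H399
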