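import Vale.Agent.P241.H399.Block
import Vale.Agent.P241.H399.Ext
import Vale.Agent.P241.Final.TopDown

/-!
# P241, block CONE: the fixed points of the cone step

* `isIso_fixIncl` : `X^B ≅ (XA X A k)^B` for `B` not subconjugate to `A`;
* `coneZ` : the mapping cone of `1 ∧ v - b ∘ succ` on `XA X A k ∧ P ∧ S¹`;
* `iso_notSub`, `iso_self` : its fixed points.
-/

open CategoryTheory MonoidalCategory Limits Pretriangulated OnePoint Pointwise MulAction
open Vale.Agent.P251 Vale.Agent.P251.G Vale.Agent.P251.G.LC Vale.Agent.P251.I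
open Vale.Agent.P251.St Vale.Agent.P251.St.SHCat Vale.Agent.P241.St
open Vale.Agent.P241.Geo Vale.Agent.P241.H241 Vale.Agent.P241.H733 Vale.Agent.P241.Final
open Vale.Agent.P241.H137

noncomputable section

namespace Vale.Agent.P241.H399

variable {G : Type} [Group G]

/-! ### Subgroups which are not subconjugate to `A` -/

theorem not_le_map_conj {A B : Subgroup G} (h : ¬ SubConj B A) (g : G) :
    ¬ B ≤ A.map (MulAut.conj g).toMonoidHom := by
  intro hB
  refine h ⟨g⁻¹, ?_⟩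
  rintro _ ⟨b, hb, rfl⟩
  obtain ⟨a, ha, hab⟩ := hB hb
  change g⁻¹ * b * g⁻¹⁻¹ ∈ A
  have h1 : b = g * a * g⁻¹ := hab.symm
  have h2 : g⁻¹ * b * g⁻¹⁻¹ = a := by rw [h1]; group
  rw [h2]
  exact ha

variable [Finite G] (X : GSpace G) (A : Subgroup G) (k : ℕ)

theorem surjective_fixIncl {B : Subgroup G} (h : ¬ SubConj B A) :
    Function.Surjective (app (fixMap (inclL X A k) (eqv_inclL X A k) B)) := by
  intro y
  have hinj : Function.Injective (app (inclL X A k)) :=
    injective_app_ofClosed (Y := L (xaG X A k)) _ XA.isClosedEmbedding_incl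
  change y ∈ Set.range (app (fixMap (inclL X A k) (eqv_inclL X A k) B))
  rw [mem_range_fixMap (eqv_inclL X A k) hinj]
  induction y using OnePoint.rec with
  | infty => exact ⟨∞, by rw [app_infty, app_infty]⟩
  | coe y =>
    have h1 : ∀ g ∈ B, g • (y.1 : XA X.carrier A k) = y.1 := fun g hg => y.2 ⟨g, hg⟩
    have h2 := XA.snd_eq_zero_of_fixed (fun g => not_le_map_conj h g) h1
    refine ⟨((XA.fst y.1 : X.carrier) : OnePoint X.carrier), ?_⟩
    rw [app_inclL_coe, ← XA.eq_incl h2]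
    rfl

theorem isIso_fixIncl {B : Subgroup G} (h : ¬ SubConj B A) :
    IsIso (fixMap (inclL X A k) (eqv_inclL X A k) B) :=
  Cell.isIso_of_bijective _
    ⟨injective_fixMap _ (injective_app_ofClosed (Y := L (xaG X A k)) _
      XA.isClosedEmbedding_incl) B, surjective_fixIncl X A k h⟩

/-! ### The inclusion `XA X A k ⟶ XA X A (k + 1)` -/

/-- the inclusion `XA X A k ⟶ XA X A (k + 1)` -/
def succL : L (xaG X A k) ⟶ L (xaG X A (k + 1)) :=
  ofClosed (X := L (xaG X A k)) (Y := L (xaG X A (k + 1))) XA.succ XA.isClosedEmbedding_succ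

theorem app_succL_coe (x : (xaG X A k).carrier) :
    app (succL X A k) (x : OnePoint (xaG X A k).carrier) =
      ((XA.succ x : (xaG X A (k + 1)).carrier) : OnePoint (xaG X A (k + 1)).carrier) := rfl

theorem eqv_succL : Eqv (succL X A k) := by
  intro g
  apply hom_ext
  intro x
  rw [app_comp, app_comp, app_act_coe, app_succL_coe, app_succL_coe, app_act_coe]
  exact congrArg _ (XA.succ_smul g x)

theorem inclL_succL : inclL X A k ≫ succL X A k = inclL X A (k + 1) := by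
  apply hom_ext
  intro x
  rw [app_comp, app_inclL_coe, app_succL_coe, app_inclL_coe]
  exact congrArg _ (XA.succ_incl x)

theorem wr_comp {H : Type} [Group H] {Z Z' Z'' : GSpace H} (f : L Z ⟶ L Z') (g : L Z' ⟶ L Z'')
    (P : Space) : wr (f ≫ g) P = wr f P ≫ wr g P := by
  rw [← cancel_epi (pt Z P).hom, pt_wr, pt_wr_assoc, pt_wr, MonoidalCategory.comp_whiskerRight,
    Category.assoc]

/-! ### The mapping cone -/

section coneZ

variable {P Q : Space} (v : Map P Q) (b : L (xt (xaG X A (k + 1)) P) ⟶ L (xt (xaG X A k) Q))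
  (hb : Eqv b)

/-- `1 ∧ v` -/
def fE : EMap (xt (xaG X A k) P) (xt (xaG X A k) Q) := ⟨wl (xaG X A k) (toHom v), eqv_wl _ _⟩

/-- `b ∘ succ` -/
def gE : EMap (xt (xaG X A k) P) (xt (xaG X A k) Q) :=
  ⟨wr (succL X A k) P ≫ b, (eqv_wr (eqv_succL X A k) P).comp hb⟩

/-- The mapping cone of `1 ∧ v - b ∘ succ`. -/
def coneZ : GSpace G := gdiff (fE X A k v) (gE X A k b hb)

variable {X A k v b} in
/-- on the fixed points of a subgroup which is not subconjugate to `A` the two maps agree -/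
theorem fE_fix_eq (hbv : wr (inclL X A (k + 1)) P ≫ b =
      wr (inclL X A k) P ≫ wl (xaG X A k) (toHom v)) {B : Subgroup G} (h : ¬ SubConj B A) :
    (fE X A k v).fix B = (gE X A k b hb).fix B := by
  have hi := isIso_fixIncl X A k h
  have e1 : fixMap (wr (inclL X A k) P) (eqv_wr (eqv_inclL X A k) P) B =
      (fixXt X P B).inv ≫ (fixMap (inclL X A k) (eqv_inclL X A k) B ▷ toLC P) ≫
        (fixXt (xaG X A k) P B).hom := by
    rw [Iso.eq_inv_comp, fixXt_wr]
  have hi' : IsIso (fixMap (wr (inclL X A k) P) (eqv_wr (eqv_inclL X A k) P) B) := by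
    rw [e1]
    infer_instance
  rw [← cancel_epi (fixMap (wr (inclL X A k) P) (eqv_wr (eqv_inclL X A k) P) B)]
  change _ ≫ fixMap (wl (xaG X A k) (toHom v)) (eqv_wl _ _) B =
    _ ≫ fixMap (wr (succL X A k) P ≫ b) ((eqv_wr (eqv_succL X A k) P).comp hb) B
  rw [← fixMap_comp, ← fixMap_comp]
  apply fixMap_congr
  rw [← Category.assoc, ← wr_comp, inclL_succL, hbv]

variable {T : SHCat} (S : Susp T)

/-- the fixed points for a subgroup `B` which is not subconjugate to `A` -/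
theorem iso_notSub {k} {v : Map P Q} {b : L (xt (xaG X A (k + 1)) P) ⟶ L (xt (xaG X A k) Q)}
    (hb : Eqv b) (hbv : wr (inclL X A (k + 1)) P ≫ b =
      wr (inclL X A k) P ≫ wl (xaG X A k) (toHom v)) {B : Subgroup G} (h : ¬ SubConj B A)
    (hP : St.FC P) (hQ : St.FC Q) (hX : St.FC (X.fix B))
    (hZ : St.FC ((coneZ X A k v b hb).fix B)) {W : T.C}
    (hW : IsConeOf (0 : S.obj (X.fix B) ⊗ S.obj P ⟶ S.obj (X.fix B) ⊗ S.obj Q) W) :
    Nonempty (S.obj ((coneZ X A k v b hb).fix B) ≅ W⟦(1 : ℤ)⟧) := by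
  have hi := isIso_fixIncl X A k h
  -- `(XA X A k × P)^B ≅ X^B × P`
  let eP : ∀ P : Space, fixL X B ⊗ toLC P ≅ fixL (xt (xaG X A k) P) B := fun P =>
    whiskerRightIso (asIso (fixMap (inclL X A k) (eqv_inclL X A k) B)) (toLC P) ≪≫
      fixXt (xaG X A k) P B
  have hXP : St.FC (ofLC (fixL X B ⊗ toLC P)) := fc_prod hX hP
  have hXQ : St.FC (ofLC (fixL X B ⊗ toLC Q)) := fc_prod hX hQ
  have hP' : St.FC ((xt (xaG X A k) P).fix B) := fc_of_isoL hXP (eP P)
  have hQ' : St.FC ((xt (xaG X A k) Q).fix B) := fc_of_isoL hXQ (eP Q)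
  obtain ⟨W', hW', ⟨e⟩⟩ := isConeOf_gdiff S (fE X A k v) (gE X A k b hb) B hP' hQ' hZ
  rw [← fE_fix_eq hb hbv h, sub_self] at hW'
  obtain ⟨i⟩ := hW'.nonempty_iso hW
    ((mapIsoL S hXP hP' (eP P)).symm ≪≫ (mulI S hX hP).symm)
    ((mapIsoL S hXQ hQ' (eP Q)).symm ≪≫ (mulI S hX hQ).symm) (by simp)
  exact ⟨e ≪≫ (shiftFunctor T.C (1 : ℤ)).mapIso i⟩

end coneZ

end Vale.Agent.P241.H399
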