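import Vale.Agent.P241.H585.Api

/-!
# P241, block CONE: gluing an equivariant map from finitely many closed pieces

`exists_glue` : let `Y⁺` be the union of the image of `e : E⁺ → Y⁺` and of the translates of the
image of `j : D⁺ → Y⁺`. Maps `β : D⁺ → Y'⁺`, `ε : E⁺ → Y'⁺` which are compatible with the action
extend to a `G`-map `F : Y⁺ → Y'⁺` with `j ≫ F = β`, `e ≫ F = ε`.
-/

open CategoryTheory OnePoint Topology
open Vale.Agent.P251.G Vale.Agent.P251.G.LC Vale.Agent.P251.St Vale.Agent.P241.St
open Vale.Agent.P241.Geo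

namespace Vale.Agent.P241.H399

variable {G : Type} [Group G]

theorem app_act_mul (Y : GSpace G) (g h : G) (y : OnePoint (L Y)) :
    app (act Y (g * h)) y = app (act Y g) (app (act Y h) y) := by
  rw [act_mul, app_comp]

theorem app_act_inv_act (Y : GSpace G) (g : G) (y : OnePoint (L Y)) :
    app (act Y g⁻¹) (app (act Y g) y) = y := by
  rw [← app_act_mul, inv_mul_cancel, act_one, app_id]

theorem app_act_act_inv (Y : GSpace G) (g : G) (y : OnePoint (L Y)) :
    app (act Y g) (app (act Y g⁻¹) y) = y := by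
  rw [← app_act_mul, mul_inv_cancel, act_one, app_id]

section glue

variable {Y Y' : GSpace G} {D E : LC} (j : D ⟶ L Y) (β : D ⟶ L Y') (e : E ⟶ L Y) (ε : E ⟶ L Y')

/-- the graph of the glued map -/
def GlueRel (y : OnePoint (L Y)) (y' : OnePoint (L Y')) : Prop :=
  (∃ x, app e x = y ∧ app ε x = y') ∨
    ∃ (g : G) (d : _), app (act Y g) (app j d) = y ∧ app (act Y' g) (app β d) = y'

variable {j β e ε}

theorem GlueRel.gsmul {y : OnePoint (L Y)} {y' : OnePoint (L Y')} (h : GlueRel j β e ε y y')
    (h4 : ∀ (g : G) x, ∃ x', app (act Y g) (app e x) = app e x' ∧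
      app (act Y' g) (app ε x) = app ε x') (g : G) :
    GlueRel j β e ε (app (act Y g) y) (app (act Y' g) y') := by
  rcases h with ⟨x, rfl, rfl⟩ | ⟨g', d, rfl, rfl⟩
  · obtain ⟨x', h1, h2⟩ := h4 g x
    exact Or.inl ⟨x', h1.symm, h2.symm⟩
  · exact Or.inr ⟨g * g', d, app_act_mul Y g g' _, app_act_mul Y' g g' _⟩

theorem GlueRel.functional
    (h1 : ∀ (g : G) d d', app (act Y g) (app j d) = app j d' →
      app (act Y' g) (app β d) = app β d')
    (h2 : ∀ d x, app j d = app e x → app β d = app ε x)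
    (h3 : ∀ x x', app e x = app e x' → app ε x = app ε x')
    (h4 : ∀ (g : G) x, ∃ x', app (act Y g) (app e x) = app e x' ∧
      app (act Y' g) (app ε x) = app ε x')
    {y : OnePoint (L Y)} {y' y'' : OnePoint (L Y')} (h : GlueRel j β e ε y y')
    (h' : GlueRel j β e ε y y'') : y' = y'' := by
  have key : ∀ (x : OnePoint E) (g : G) (d : OnePoint D), app (act Y g) (app j d) = app e x →
      app (act Y' g) (app β d) = app ε x := by
    intro x g d hd
    obtain ⟨x', hx1, hx2⟩ := h4 g⁻¹ x
    have hd' : app j d = app e x' := by rw [← hx1, ← hd, app_act_inv_act]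
    rw [h2 d x' hd', ← hx2, app_act_act_inv]
  rcases h with ⟨x, rfl, rfl⟩ | ⟨g, d, rfl, rfl⟩
  · rcases h' with ⟨x', hx', rfl⟩ | ⟨g, d, hd, rfl⟩
    · exact h3 x x' hx'.symm
    · exact (key x g d hd).symm
  · rcases h' with ⟨x', hx', rfl⟩ | ⟨g', d', hd, rfl⟩
    · exact key x' g d hx'.symm
    · have h5 := h1 (g'⁻¹ * g) d d' (by rw [app_act_mul, ← hd, app_act_inv_act])
      rw [← h5, app_act_mul, app_act_act_inv]

/-- **Gluing** an equivariant map from the translates of a closed piece and an invariant closed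
piece. -/
theorem exists_glue [Finite G] (hcov : ∀ y : Y.carrier, (∃ x, app e x = (y : OnePoint Y.carrier)) ∨
      ∃ (g : G) (d : _), app (act Y g) (app j d) = (y : OnePoint Y.carrier))
    (h1 : ∀ (g : G) d d', app (act Y g) (app j d) = app j d' →
      app (act Y' g) (app β d) = app β d')
    (h2 : ∀ d x, app j d = app e x → app β d = app ε x)
    (h3 : ∀ x x', app e x = app e x' → app ε x = app ε x')
    (h4 : ∀ (g : G) x, ∃ x', app (act Y g) (app e x) = app e x' ∧
      app (act Y' g) (app ε x) = app ε x') :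
    ∃ F : L Y ⟶ L Y', Eqv F ∧ j ≫ F = β ∧ e ≫ F = ε := by
  classical
  have htot : ∀ y : OnePoint (L Y), ∃ y', GlueRel j β e ε y y' := by
    intro y
    induction y using OnePoint.rec with
    | infty => exact ⟨∞, Or.inl ⟨∞, app_infty e, app_infty ε⟩⟩
    | coe y =>
      rcases hcov y with ⟨x, hx⟩ | ⟨g, d, hd⟩
      · exact ⟨_, Or.inl ⟨x, hx, rfl⟩⟩
      · exact ⟨_, Or.inr ⟨g, d, hd, rfl⟩⟩
  choose F hF using htot
  have hfun : ∀ {y : OnePoint (L Y)} {y' : OnePoint (L Y')}, GlueRel j β e ε y y' → F y = y' :=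
    fun h => GlueRel.functional h1 h2 h3 h4 (hF _) h
  have hj : ∀ (g : G) d, F (app (act Y g) (app j d)) = app (act Y' g) (app β d) :=
    fun g d => hfun (Or.inr ⟨g, d, rfl, rfl⟩)
  have he : ∀ x, F (app e x) = app ε x := fun x => hfun (Or.inl ⟨x, rfl, rfl⟩)
  have hcont : Continuous F := by
    rw [continuous_iff_isClosed]
    intro C hC
    have hpre : F ⁻¹' C = (app e '' (app ε ⁻¹' C)) ∪
        ⋃ g : G, (fun d => app (act Y g) (app j d)) '' ((fun d => app (act Y' g) (app β d)) ⁻¹' C) := by
      ext y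
      simp only [Set.mem_preimage, Set.mem_union, Set.mem_iUnion, Set.mem_image]
      constructor
      · intro hy
        rcases hF y with ⟨x, hx, hx'⟩ | ⟨g, d, hd, hd'⟩
        · exact Or.inl ⟨x, by rw [hx']; exact hy, hx⟩
        · exact Or.inr ⟨g, d, by rw [hd']; exact hy, hd⟩
      · rintro (⟨x, hx, rfl⟩ | ⟨g, d, hd, rfl⟩)
        · rw [he]; exact hx
        · rw [hj]; exact hd
    rw [hpre]
    refine IsClosed.union ?_ (isClosed_iUnion_of_finite fun g => ?_)
    · exact (hC.preimage (continuous_app ε)).isCompact.image (continuous_app e) |>.isClosed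
    · exact (hC.preimage ((continuous_app (act Y' g)).comp (continuous_app β))).isCompact.image
        ((continuous_app (act Y g)).comp (continuous_app j)) |>.isClosed
  have h0 : F ∞ = ∞ := hfun (Or.inl ⟨∞, app_infty e, app_infty ε⟩)
  refine ⟨homMk F hcont h0, fun g => ?_, ?_, ?_⟩
  · apply app_ext
    intro y
    rw [app_comp, app_comp, app_homMk, app_homMk]
    exact hfun ((hF y).gsmul h4 g)
  · apply app_ext
    intro d
    rw [app_comp, app_homMk]
    have := hj 1 d
    rwa [act_one, act_one, app_id, app_id] at this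
  · apply app_ext
    intro x
    rw [app_comp, app_homMk]
    exact he x

end glue

end Vale.Agent.P241.H399
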