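import Vale.Agent.P241.H399.Cone
import Vale.Agent.P241.H132.Stage
import Vale.Agent.P241.H585.TpFC
import Vale.Agent.P241.H435.Ranks

/-!
# P241, block CONE: the ranks

`coneG_of` : the statement `H132.ConeG S p` from the output `ConeOut` of the cone step and the
graded fields `π_* K(j)`.
-/

open CategoryTheory MonoidalCategory Limits Pretriangulated OnePoint
open Vale.Agent.P251 Vale.Agent.P251.St Vale.Agent.P251.St.SHCat
open Vale.Agent.P241.St Vale.Agent.P241.Final Vale.Agent.P241.H137 Vale.Agent.P241.KR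
open Vale.Agent.P241.H435

namespace Vale.Agent.P241.H399

/-! ### Parity -/

section par

variable {ι : Type} [Fintype ι]

theorem evc_of_even {e : ι → ℤ} (h : ∀ i, Even (e i)) : evc e = Fintype.card ι ∧ odc e = 0 := by
  have h0 : odc e = 0 := by
    have : IsEmpty {i // Odd (e i)} := ⟨fun a => (Int.not_even_iff_odd.2 a.2) (h a.1)⟩
    exact Nat.card_of_isEmpty
  have h1 := evc_add_odc e
  rw [h0, Nat.add_zero, Nat.card_eq_fintype_card] at h1
  exact ⟨h1, h0⟩

theorem evc_of_odd {e : ι → ℤ} (h : ∀ i, Odd (e i)) : evc e = 0 ∧ odc e = Fintype.card ι := by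
  have h0 : evc e = 0 := by
    have : IsEmpty {i // Even (e i)} := ⟨fun a => (Int.not_even_iff_odd.2 (h a.1)) a.2⟩
    exact Nat.card_of_isEmpty
  have h1 := evc_add_odc e
  rw [h0, Nat.zero_add, Nat.card_eq_fintype_card] at h1
  exact ⟨h0, h1⟩

end par

section ranks

variable {T : SHCat}

/-- the cone of `0 : X ⊗ P ⟶ X ⊗ Q` -/
theorem ev_of_cone_zero {K : RingA T} {q : ℕ} (hq : GField K.obj q) {X P Q W : T.C} {ε : ℤ}
    {β β' : ℕ} (hX : NZ K.obj X) (hP : H132.BasisPar K P ε β) (hQ : H132.BasisPar K Q ε β')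
    (hW : IsConeOf (0 : X ⊗ P ⟶ X ⊗ Q) W) {Z : T.C} (i : Z ≅ W⟦(1 : ℤ)⟧) :
    H132.EvGe K Z (min β β') := by
  obtain ⟨ι, _, hne, ⟨bX⟩⟩ := hX
  obtain ⟨bP, hbP⟩ := hP
  obtain ⟨bQ, hbQ⟩ := hQ
  obtain ⟨g, h, hW⟩ := hW
  obtain ⟨ω, _, ⟨bW⟩⟩ := HasBas.cone hq hW (bX.tensor bP).hasBas (bX.tensor bQ).hasBas
  have h0 : KZero K.obj (0 : X ⊗ P ⟶ X ⊗ Q) := fun j x => by
    rw [MonoidalPreadditive.whiskerLeft_zero, comp_zero]
  have h1 := (KBasis.zeroMap hq hW h0 (bX.tensor bP) (bX.tensor bQ) bW).2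
  rw [KBasis.od_tensor, KBasis.ev_tensor] at h1
  have h2 : 1 ≤ bX.ev + bX.od := by
    rw [bX.ev_add_od]
    exact Fintype.card_pos
  let b : KBasis K.obj Z (Fin (Fintype.card ω)) :=
    ((bW.shift 1).ofIso i.symm).reindex (Fintype.equivFin ω).symm
  let b0 : KBasis K.obj Z ω := (bW.shift 1).ofIso i.symm
  have h3 : b.ev = bW.od := (b.ev_eq hq b0).trans (evc_succ bW.e)
  refine ⟨_, b, ?_⟩
  rw [h3, h1]
  rcases Int.even_or_odd ε with hε | hε
  · have p1 := evc_of_even (e := bP.e) fun l => (Int.even_add.1 (hbP l)).2 hε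
    have p2 := evc_of_even (e := bQ.e) fun l => (Int.even_add.1 (hbQ l)).2 hε
    have e1 : bP.ev = β := p1.1.trans (Fintype.card_fin β)
    have e2 : bP.od = 0 := p1.2
    have e3 : bQ.ev = β' := p2.1.trans (Fintype.card_fin β')
    have e4 : bQ.od = 0 := p2.2
    rw [e1, e2, e3, e4]
    rcases Nat.eq_zero_or_pos bX.ev with h5 | h5
    · have h6 : 1 ≤ bX.od := by omega
      calc min β β' ≤ 1 * β' := by rw [one_mul]; exact min_le_right _ _
        _ ≤ bX.od * β' := Nat.mul_le_mul_right _ h6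
        _ ≤ _ := by omega
    · calc min β β' ≤ 1 * β := by rw [one_mul]; exact min_le_left _ _
        _ ≤ bX.ev * β := Nat.mul_le_mul_right _ h5
        _ ≤ _ := by omega
  · have h7 : ¬ Even ε := Int.not_even_iff_odd.2 hε
    have p1 := evc_of_odd (e := bP.e) fun l =>
      Int.not_even_iff_odd.1 fun h => h7 ((Int.even_add.1 (hbP l)).1 h)
    have p2 := evc_of_odd (e := bQ.e) fun l =>
      Int.not_even_iff_odd.1 fun h => h7 ((Int.even_add.1 (hbQ l)).1 h)
    have e1 : bP.ev = 0 := p1.1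
    have e2 : bP.od = β := p1.2.trans (Fintype.card_fin β)
    have e3 : bQ.ev = 0 := p2.1
    have e4 : bQ.od = β' := p2.2.trans (Fintype.card_fin β')
    rw [e1, e2, e3, e4]
    rcases Nat.eq_zero_or_pos bX.ev with h5 | h5
    · have h6 : 1 ≤ bX.od := by omega
      calc min β β' ≤ 1 * β := by rw [one_mul]; exact min_le_left _ _
        _ ≤ bX.od * β := Nat.mul_le_mul_right _ h6
        _ ≤ _ := by omega
    · calc min β β' ≤ 1 * β' := by rw [one_mul]; exact min_le_right _ _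
        _ ≤ bX.ev * β' := Nat.mul_le_mul_right _ h5
        _ ≤ _ := by omega

/-- the tensor product with the cone of a map which is injective in `K`-homology -/
theorem rkLe_of_cone_inj {K : RingA T} {q : ℕ} (hq : GField K.obj q) {F P Q C : T.C} {ε : ℤ}
    {β β' ρ : ℕ} (hF : H132.RkLe K F ρ) (hP : H132.BasisPar K P ε β)
    (hQ : H132.BasisPar K Q ε β') {f : P ⟶ Q} (hf : KInj K.obj f) (hC : IsConeOf f C) {Z : T.C}
    (i : Z ≅ (F ⊗ C)⟦(1 : ℤ)⟧) : H132.RkLe K Z (ρ * (β' - β)) := by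
  obtain ⟨m, bF, hm⟩ := hF
  obtain ⟨bP, -⟩ := hP
  obtain ⟨bQ, -⟩ := hQ
  obtain ⟨g, h, hC⟩ := hC
  obtain ⟨γ, _, ⟨bC⟩⟩ := HasBas.cone hq hC bP.hasBas bQ.hasBas
  have h1 := KBasis.inj hq hC hf bP bQ bC
  have h2 : β' = β + Fintype.card γ := by
    have e1 := bP.ev_add_od
    have e2 := bQ.ev_add_od
    have e3 := bC.ev_add_od
    rw [Fintype.card_fin] at e1 e2
    omega
  refine ⟨Fintype.card (Fin m × γ), (((bF.tensor bC).shift 1).ofIso i.symm).reindex
    (Fintype.equivFin _).symm, ?_⟩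
  rw [Fintype.card_prod, Fintype.card_fin, h2, Nat.add_sub_cancel_left]
  exact Nat.mul_le_mul_right _ hm

end ranks

section main

variable {T : SHCat} (S : Susp T) (p : ℕ)

/-- **Block CONE** from the closure properties of finite `G`-cell spaces. -/
theorem coneG_of (hxt : XtGFC) (hxa : XaGFC) (hG : GFAll S p) : H132.ConeG S p := by
  intro K hK G _ _ A X hX t k P Q f β β' hf hb
  obtain ⟨Z, hZ⟩ := exists_coneOut hxt hxa S hX hf.fcP hf.fcQ hb
  have hfix : ∀ B : Subgroup G, St.FC (X.fix B) := fun B => H486.fixFC G X hX B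
  obtain ⟨C, hC⟩ := exists_isConeOf (S.map f)
  obtain ⟨iA⟩ := hZ.self C hC
  obtain ⟨ε, hbas⟩ := hf.bases
  refine ⟨Z, hZ.gfc, fun B hB j => ?_, fun j h => ?_, fun ρ h => ?_⟩
  · obtain ⟨W, hW⟩ := exists_isConeOf
      (0 : S.obj (X.fix B) ⊗ S.obj P ⟶ S.obj (X.fix B) ⊗ S.obj Q)
    obtain ⟨i⟩ := hZ.not_sub B hB W hW
    refine ⟨fun h => ?_, fun h => ?_⟩
    · rw [acyclic_congr i, acyclic_shift, acyclic_iff_isZero]
      obtain ⟨g, δ, hD⟩ := hW.whiskerLeft (K j).obj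
      exact Triangle.isZero₃_of_isZero₁₂ _ hD
        (acyclic_iff_isZero.1 (acyclic_tensor (Y := S.obj P) h))
        (acyclic_iff_isZero.1 (acyclic_tensor (Y := S.obj Q) h))
    · obtain ⟨q, hq⟩ := hG j (K j) (hK j)
      exact ev_of_cone_zero hq (nz_of_not_acyclic (hasBas_obj hq (hfix B)) h) (hbas j).1
        (hbas j).2 hW i
  · rw [acyclic_congr iA, acyclic_shift]
    refine acyclic_tensor ?_
    rw [← acyclic_congr (mulI S (hfix A) (Geo.tpFC (Weyl A) k))]
    exact acyclic_tensor h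
  · obtain ⟨q, hq⟩ := hG t (K t) (hK t)
    exact rkLe_of_cone_inj hq h (hbas t).1 (hbas t).2 hf.inj hC iA

end main

end Vale.Agent.P241.H399
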