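import Vale.Agent.P241.H399.SuccNull

/-!
# P241, block CONE: the `A`-fixed points of the cone step

* `fixI X A k : X^A × (star W)^k ≅ (XA X A k)^A`;
* `iso_self` : `Σ^∞ Z^A` is the suspension of `Σ^∞ (X^A × (star W)^k) ⊗ cone (S v)`.
-/

open CategoryTheory MonoidalCategory Limits Pretriangulated OnePoint MulAction
open Vale.Agent.P251 Vale.Agent.P251.G Vale.Agent.P251.G.LC Vale.Agent.P251.I
open Vale.Agent.P251.St Vale.Agent.P251.St.SHCat Vale.Agent.P241.St
open Vale.Agent.P241.Geo Vale.Agent.P241.H241 Vale.Agent.P241.H733 Vale.Agent.P241.Final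
open Vale.Agent.P241.H137

noncomputable section

set_option linter.unusedSectionVars false

namespace Vale.Agent.P241.H399

variable {G : Type} [Group G] [Finite G] (X : GSpace G) (A : Subgroup G) (k : ℕ)

theorem jL_act_mem {g : G} (hg : g ∈ A) :
    jL X A k ≫ act (xaG X A k) g = jL X A k := by
  apply hom_ext
  intro w
  rw [app_comp, app_jL_coe, app_act_coe]
  have h1 := j1_smul (X := X) (m := k) (⟨g, Subgroup.le_normalizer hg⟩ : NA A) w
  have h2 : QuotientGroup.mk' (A.subgroupOf (NA A)) ⟨g, Subgroup.le_normalizer hg⟩ = 1 := by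
    rw [QuotientGroup.mk'_apply, QuotientGroup.eq_one_iff]
    exact hg
  rw [h2, one_smul] at h1
  exact congrArg _ h1.symm

/-- `X^A × (star W)^k → (XA X A k)^A` -/
def jF : L (WX X A k) ⟶ fixL (xaG X A k) A :=
  fixLift (jL X A k) fun _ hg => jL_act_mem X A k hg

theorem jF_ι : jF X A k ≫ fixι (xaG X A k) A = jL X A k := fixLift_ι _ _

theorem injective_jF : Function.Injective (app (jF X A k)) := by
  have h : Function.Injective (app (jF X A k ≫ fixι (xaG X A k) A)) := by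
    rw [jF_ι]
    exact injective_app_ofClosed (Y := L (xaG X A k)) _ isClosedEmbedding_j1
  intro x y hxy
  exact h (congrArg (app (fixι (xaG X A k) A)) hxy)

theorem exists_j1_of_fixed (p : FA X A k) : ∃ w, j1 X A k w = p.1 := by
  by_cases hp : XA.snd p.1 = 0
  · refine ⟨wz X A k (show MulAction.fixedPoints A X.carrier from
      ⟨XA.fst p.1, fun g => fst_fixed p g.2⟩), ?_⟩
    exact (j1_wz _).trans (XA.eq_incl hp).symm
  · obtain ⟨i, a, ha⟩ := XA.exists_label hp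
    exact exists_j1 ha (stab_fixed p ha)

theorem surjective_jF : Function.Surjective (app (jF X A k)) := by
  intro y
  induction y using OnePoint.rec with
  | infty => exact ⟨∞, app_infty _⟩
  | coe p =>
    obtain ⟨w, hw⟩ := exists_j1_of_fixed X A k p
    refine ⟨(w : OnePoint (WX X A k).carrier), injective_fixι (xaG X A k) A ?_⟩
    rw [← app_comp, jF_ι, app_jL_coe, hw]
    rfl

/-- `X^A × (star W)^k ≅ (XA X A k)^A` -/
def fixI : L (WX X A k) ≅ fixL (xaG X A k) A :=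
  @asIso _ _ _ _ (jF X A k)
    (Cell.isIso_of_bijective _ ⟨injective_jF X A k, surjective_jF X A k⟩)

section self

variable {P Q : Space} {T : SHCat} (S : Susp T)

theorem homotopic_gE_fix (b : L (xt (xaG X A (k + 1)) P) ⟶ L (xt (xaG X A k) Q)) (hb : Eqv b) :
    Homotopic ((gE X A k b hb).fix A) 0 := by
  have h0 : (gE X A k b hb).fix A = (fixXt (xaG X A k) P A).inv ≫
      (fixMap (succL X A k) (eqv_succL X A k) A ▷ toLC P) ≫ (fixXt (xaG X A (k + 1)) P A).hom ≫
        fixMap b hb A := by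
    change fixMap (wr (succL X A k) P ≫ b) ((eqv_wr (eqv_succL X A k) P).comp hb) A = _
    rw [fixMap_comp _ (eqv_wr (eqv_succL X A k) P), Iso.eq_inv_comp, fixXt_wr_assoc]
  rw [h0]
  have h1 : Homotopic (fixMap (succL X A k) (eqv_succL X A k) A ▷ toLC P)
      ((0 : fixL (xaG X A k) A ⟶ fixL (xaG X A (k + 1)) A) ▷ toLC P) :=
    (succ_null X A k).whiskerRight (toLC P)
  have h2 : ((0 : fixL (xaG X A k) A ⟶ fixL (xaG X A (k + 1)) A) ▷ toLC P) = 0 := by
    apply tensor_ext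
    intro x y
    rw [app_whiskerRight_smash, app_zero, app_zero, smash_infty_left]
  rw [h2] at h1
  have h3 := Homotopic.comp_left (fixXt (xaG X A k) P A).inv
    (h1.comp_right ((fixXt (xaG X A (k + 1)) P A).hom ≫ fixMap b hb A))
  rw [Limits.zero_comp, Limits.comp_zero] at h3
  exact h3

theorem mapL_zero {Z Z' : LC} (hZ : St.FC (ofLC Z)) (hZ' : St.FC (ofLC Z')) :
    S.mapL (0 : Z ⟶ Z') = 0 := by
  let ZF : FCat := ⟨Z, fc_toLC hZ⟩
  let ZF' : FCat := ⟨Z', fc_toLC hZ'⟩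
  exact S.toSpaceFunctor.map_eq_zero (X := ZF) (Y := ZF') (FCat.hom 0) (Homotopic.refl _)

theorem mapL_eq_zero {Z Z' : LC} (hZ : St.FC (ofLC Z)) (hZ' : St.FC (ofLC Z')) {f : Z ⟶ Z'}
    (hf : Homotopic f 0) : S.mapL f = 0 := by
  let ZF : FCat := ⟨Z, fc_toLC hZ⟩
  let ZF' : FCat := ⟨Z', fc_toLC hZ'⟩
  exact S.toSpaceFunctor.map_eq_zero (X := ZF) (Y := ZF') (FCat.hom f) hf

/-- the `A`-fixed points of the cone step -/
theorem iso_self {v : Map P Q} {b : L (xt (xaG X A (k + 1)) P) ⟶ L (xt (xaG X A k) Q)}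
    (hb : Eqv b) (hP : St.FC P) (hQ : St.FC Q) (hXk : St.FC ((xaG X A k).fix A))
    (hZ : St.FC ((coneZ X A k v b hb).fix A)) {C : T.C} (hC : IsConeOf (S.map v) C) :
    Nonempty (S.obj ((coneZ X A k v b hb).fix A) ≅
      (S.obj ((X.fix A).prod (tp (Weyl A) (Weyl A) k).und) ⊗ C)⟦(1 : ℤ)⟧) := by
  have hXP : St.FC (ofLC (fixL (xaG X A k) A ⊗ toLC P)) := fc_prod hXk hP
  have hXQ : St.FC (ofLC (fixL (xaG X A k) A ⊗ toLC Q)) := fc_prod hXk hQ
  have hP' : St.FC ((xt (xaG X A k) P).fix A) := fc_of_isoL hXP (fixXt (xaG X A k) P A)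
  have hQ' : St.FC ((xt (xaG X A k) Q).fix A) := fc_of_isoL hXQ (fixXt (xaG X A k) Q A)
  obtain ⟨W, hW, ⟨e⟩⟩ := isConeOf_gdiff S (fE X A k v) (gE X A k b hb) A hP' hQ' hZ
  rw [mapL_eq_zero S hP' hQ' (homotopic_gE_fix X A k b hb), sub_zero] at hW
  -- the cone of `1 ∧ v`
  have h1 : IsConeOf (S.map (ofHom (X := ((xaG X A k).fix A).prod P)
      (Y := ((xaG X A k).fix A).prod Q) (fixL (xaG X A k) A ◁ toHom v)))
      (S.obj ((xaG X A k).fix A) ⊗ C) :=
    isConeOf_prod S hXk hP hQ v _ (fun x y => app_whiskerLeft_smash (fixL (xaG X A k) A)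
      (toHom v) x y) hC
  obtain ⟨i⟩ := hW.nonempty_iso h1 (mapIsoL S hXP hP' (fixXt (xaG X A k) P A)).symm
    (mapIsoL S hXQ hQ' (fixXt (xaG X A k) Q A)).symm (by
      change S.mapL ((fE X A k v).fix A) ≫ S.mapL (fixXt (xaG X A k) Q A).inv =
        S.mapL (fixXt (xaG X A k) P A).inv ≫ S.mapL (fixL (xaG X A k) A ◁ toHom v)
      rw [← mapL_comp S hP' hQ' hXQ, ← mapL_comp S hP' hXP hXQ]
      congr 1
      rw [Iso.comp_inv_eq, Category.assoc, Iso.eq_inv_comp]
      exact fixXt_wl (xaG X A k) (toHom v) A)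
  have hWX : St.FC (ofLC (L (WX X A k))) := fc_of_isoL hXk (fixI X A k).symm
  let e2 : S.obj ((xaG X A k).fix A) ≅ S.obj ((X.fix A).prod (tp (Weyl A) (Weyl A) k).und) :=
    mapIsoL S hXk hWX (fixI X A k).symm
  exact ⟨e ≪≫ (shiftFunctor T.C (1 : ℤ)).mapIso (i ≪≫ whiskerRightIso e2 C)⟩

end self

end Vale.Agent.P241.H399
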