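import Vale.Agent.P241.H399.Fixed

/-!
# P241, block CONE: the inclusion `(XA X A k)^A → (XA X A (k + 1))^A` is null-homotopic

`addRay` puts the point `t` of the ray of the coset `A` into the last coordinate.
-/

open CategoryTheory MonoidalCategory OnePoint MulAction Topology
open Vale.Agent.P251 Vale.Agent.P251.G Vale.Agent.P251.G.LC
open Vale.Agent.P251.St Vale.Agent.P241.St
open Vale.Agent.P241.Geo Vale.Agent.P241.H241 Vale.Agent.P241.H733 Vale.Agent.P241.Final

noncomputable section

set_option linter.unusedSectionVars false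

namespace Vale.Agent.P241.H399

variable {G : Type} [Group G] [Finite G] (X : GSpace G) (A : Subgroup G) (k : ℕ)

/-- the label `A` -/
abbrev oneL : G ⧸ A := ((1 : G) : G ⧸ A)

theorem smul_ray {g : G} (hg : g ∈ A) (t : NNReal) :
    g • (Star.ray (oneL A) t) = Star.ray (oneL A) t := by
  have h1 : g⁻¹ • oneL A = oneL A := by
    rw [MulAction.Quotient.smul_coe, smul_eq_mul, mul_one]
    exact (QuotientGroup.eq (s := A)).2 (by simpa using hg)
  have h2 : ∀ a : G ⧸ A, g⁻¹ • a = oneL A ↔ a = oneL A := fun a => by
    conv_lhs => rw [← h1]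
    exact (MulAction.injective g⁻¹).eq_iff
  ext a
  rw [Star.smul_apply, Star.ray_apply, Star.ray_apply]
  by_cases h : a = oneL A
  · rw [if_pos h, if_pos ((h2 a).2 h)]
  · rw [if_neg h, if_neg fun h' => h ((h2 a).1 h')]

/-- the fixed points `(XA X A k)^A` -/
abbrev FA : Type := MulAction.fixedPoints A (XA X.carrier A k)

variable {X A k}

theorem fst_fixed (p : FA X A k) {g : G} (hg : g ∈ A) :
    g • XA.fst p.1 = XA.fst p.1 := congrArg XA.fst (p.2 ⟨g, hg⟩)

theorem snd_fixed (p : FA X A k) {g : G} (hg : g ∈ A) (i : Fin k) :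
    g • XA.snd p.1 i = XA.snd p.1 i := congrFun (congrArg XA.snd (p.2 ⟨g, hg⟩)) i

theorem stab_fixed (p : FA X A k) {i : Fin k} {a : G ⧸ A} (ha : XA.snd p.1 i a ≠ 0) :
    stabilizer G a = A := XA.stab_eq_of_fixed (fun g hg => p.2 ⟨g, hg⟩) ha

/-- the coordinates of `addRay` -/
def rayC (p : FA X A k) (t : NNReal) : Fin (k + 1) → H733.Star (G ⧸ A) :=
  Fin.snoc (XA.snd p.1) (Star.ray (oneL A) t)

theorem rayC_castSucc (p : FA X A k) (t : NNReal) (i : Fin k) :
    rayC p t i.castSucc = XA.snd p.1 i := Fin.snoc_castSucc (α := fun _ => H733.Star (G ⧸ A)) ..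

theorem rayC_last (p : FA X A k) (t : NNReal) :
    rayC p t (Fin.last k) = Star.ray (oneL A) t :=
  Fin.snoc_last (α := fun _ => H733.Star (G ⧸ A)) ..

theorem stab_rayC (p : FA X A k) (t : NNReal) (i : Fin (k + 1)) (a : G ⧸ A)
    (ha : rayC p t i a ≠ 0) : stabilizer G a = A := by
  revert ha
  refine Fin.lastCases ?_ (fun i' => ?_) i
  · intro ha
    rw [rayC_last, Star.ray_apply] at ha
    have h1 : a = oneL A := by
      by_contra h
      rw [if_neg h] at ha
      exact ha rfl
    rw [h1]
    exact MulAction.stabilizer_quotient A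
  · intro ha
    rw [rayC_castSucc] at ha
    exact stab_fixed p ha

/-- put the point `t` of the ray of `A` into the last coordinate -/
def addRay (p : FA X A k) (t : NNReal) : FA X A (k + 1) :=
  ⟨⟨(XA.fst p.1, rayC p t), fun i j a b ha hb =>
      (stab_rayC p t i a ha).trans (stab_rayC p t j b hb).symm,
    fun i a ha g hg => fst_fixed p (by rw [stab_rayC p t i a ha] at hg; exact hg)⟩, by
    rintro ⟨g, hg⟩
    refine XA.ext (fst_fixed p hg) (funext fun i => ?_)
    change g • rayC p t i = rayC p t i
    refine Fin.lastCases ?_ (fun i' => ?_) i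
    · rw [rayC_last]
      exact smul_ray A hg t
    · rw [rayC_castSucc]
      exact snd_fixed p hg i'⟩

/-- forget the last coordinate -/
def predF (q : FA X A (k + 1)) : FA X A k :=
  ⟨XA.pred q.1, by
    rintro ⟨g, hg⟩
    exact XA.ext (fst_fixed q hg) (funext fun i => snd_fixed q hg i.castSucc)⟩

theorem continuous_predF : Continuous (predF : FA X A (k + 1) → FA X A k) :=
  Continuous.subtype_mk (XA.continuous_pred.comp continuous_subtype_val) _

theorem continuous_addRay : Continuous fun q : FA X A k × NNReal => addRay q.1 q.2 := by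
  have h1 : Continuous fun q : FA X A k × NNReal => (addRay q.1 q.2).1 := by
    refine XA.continuous_mk ?_ (continuous_pi fun i => ?_)
    · have h2 : Continuous fun q : FA X A k × NNReal => XA.fst q.1.1 :=
        XA.continuous_fst.comp (continuous_subtype_val.comp continuous_fst)
      exact h2
    refine Fin.lastCases ?_ (fun i' => ?_) i
    · exact ((Star.continuous_ray (oneL A)).comp continuous_snd).congr fun q =>
        (rayC_last q.1 q.2).symm
    · have h2 : Continuous fun q : FA X A k × NNReal => XA.snd q.1.1 i' :=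
        (continuous_apply i').comp (XA.continuous_snd.comp
          (continuous_subtype_val.comp continuous_fst))
      exact h2.congr fun q => (rayC_castSucc q.1 q.2 i').symm
  exact continuous_induced_rng.2 h1

/-- the left inverse of `addRay` -/
def unRay (q : FA X A (k + 1)) : FA X A k × NNReal :=
  (predF q, (XA.snd q.1 (Fin.last k) (oneL A)).toNNReal)

theorem continuous_unRay : Continuous (unRay : FA X A (k + 1) → FA X A k × NNReal) :=
  continuous_predF.prodMk (continuous_real_toNNReal.comp ((Star.continuous_eval (oneL A)).comp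
    ((continuous_apply (Fin.last k)).comp (XA.continuous_snd.comp continuous_subtype_val))))

theorem unRay_addRay (q : FA X A k × NNReal) : unRay (addRay q.1 q.2) = q := by
  refine Prod.ext (Subtype.ext (XA.ext rfl (funext fun i => rayC_castSucc q.1 q.2 i))) ?_
  change (rayC q.1 q.2 (Fin.last k) (oneL A)).toNNReal = q.2
  rw [rayC_last, Star.ray_self, Real.toNNReal_coe]

theorem isClosedEmbedding_addRay :
    IsClosedEmbedding fun q : FA X A k × NNReal => addRay q.1 q.2 :=
  Function.LeftInverse.isClosedEmbedding unRay_addRay continuous_unRay continuous_addRay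

theorem addRay_zero (p : FA X A k) : (addRay p 0).1 = XA.succ p.1 := by
  refine XA.ext rfl (funext fun i => ?_)
  change rayC p 0 i = _
  refine Fin.lastCases ?_ (fun i' => ?_) i
  · rw [rayC_last, XA.succ_snd_last, Star.ray_zero]
  · rw [rayC_castSucc, XA.succ_snd_castSucc]

variable (X A k)

/-- `addRay` in `LC` -/
def rayL : fixL (xaG X A k) A ⊗ HH ⟶ fixL (xaG X A (k + 1)) A :=
  ofClosed (X := fixL (xaG X A k) A ⊗ HH) (Y := fixL (xaG X A (k + 1)) A)
    (fun q : FA X A k × NNReal => addRay q.1 q.2) isClosedEmbedding_addRay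

theorem fix_succL : fixMap (succL X A k) (eqv_succL X A k) A =
    coneBase (fixL (xaG X A k) A) ≫ rayL X A k := by
  rw [← cancel_mono (fixι (xaG X A (k + 1)) A), fixMap_ι]
  apply hom_ext
  intro p
  rw [app_comp, app_fixι_coe, app_succL_coe, Category.assoc, app_comp, app_coneBase, app_comp]
  exact congrArg _ (addRay_zero (X := X) (A := A) p).symm

/-- **The inclusion `(XA X A k)^A → (XA X A (k + 1))^A` is null-homotopic.** -/
theorem succ_null : Homotopic (fixMap (succL X A k) (eqv_succL X A k) A) 0 := by
  rw [fix_succL]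
  have h1 := (Homotopic.comp_left (coneBase (fixL (xaG X A k) A))
    (contr_tensor_HH (fixL (xaG X A k) A))).comp_right (rayL X A k)
  rw [Category.comp_id, Limits.comp_zero, Limits.zero_comp] at h1
  exact h1

end Vale.Agent.P241.H399
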